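import Vale.Agent.P011LE.Defs
import Mathlib.LinearAlgebra.Matrix.Kronecker

/-!
The coordinates `Alt₆ + W + W` of the twenty seven dimensional space, with the cubic form
`Pf A + uᵗ A v`.
-/

open Matrix

namespace Vale.Agent.P011LE

open P011L P011LD

/-- The index set of the six coordinates. -/
abbrev S : Type := Fin 3 × Fin 2

variable (K : Type) [Field K]

/-- The alternating matrices. -/
def Alt : Submodule K (Matrix S S K) where
  carrier := {A | Aᵀ = -A ∧ ∀ i, A i i = 0}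
  add_mem' := fun {A B} a b => ⟨by rw [transpose_add, a.1, b.1, neg_add], fun i => by
    rw [Matrix.add_apply, a.2, b.2, add_zero]⟩
  zero_mem' := ⟨by simp, fun _ => rfl⟩
  smul_mem' := fun c A a => ⟨by rw [transpose_smul, a.1, smul_neg], fun i => by
    rw [Matrix.smul_apply, a.2, smul_zero]⟩

/-- The twenty seven dimensional space. -/
def J : Type := Alt K × Matrix (Fin 2) S K

instance : AddCommGroup (J K) := inferInstanceAs (AddCommGroup (Alt K × Matrix (Fin 2) S K))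

instance : Module K (J K) := inferInstanceAs (Module K (Alt K × Matrix (Fin 2) S K))

variable {K}

@[simp] theorem add_1 (y z : J K) : (y + z).1.1 = y.1.1 + z.1.1 := rfl
@[simp] theorem add_2 (y z : J K) : (y + z).2 = y.2 + z.2 := rfl
@[simp] theorem sub_1 (y z : J K) : (y - z).1.1 = y.1.1 - z.1.1 := rfl
@[simp] theorem sub_2 (y z : J K) : (y - z).2 = y.2 - z.2 := rfl
@[simp] theorem neg_1 (y : J K) : (-y).1.1 = -y.1.1 := rfl
@[simp] theorem neg_2 (y : J K) : (-y).2 = -y.2 := rfl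
@[simp] theorem zero_1 : (0 : J K).1.1 = 0 := rfl
@[simp] theorem zero_2 : (0 : J K).2 = 0 := rfl
@[simp] theorem smul_1 (c : K) (y : J K) : (c • y).1.1 = c • y.1.1 := rfl
@[simp] theorem smul_2 (c : K) (y : J K) : (c • y).2 = c • y.2 := rfl

/-- The constructor. -/
def jm (A : Matrix S S K) (hA : A ∈ Alt K) (w : Matrix (Fin 2) S K) : J K := (⟨A, hA⟩, w)

@[simp] theorem jm_1 (A : Matrix S S K) (hA : A ∈ Alt K) (w : Matrix (Fin 2) S K) :
    (jm A hA w).1.1 = A := rfl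
@[simp] theorem jm_2 (A : Matrix S S K) (hA : A ∈ Alt K) (w : Matrix (Fin 2) S K) :
    (jm A hA w).2 = w := rfl

theorem J_ext {y z : J K} (h1 : y.1.1 = z.1.1) (h2 : y.2 = z.2) : y = z :=
  Prod.ext (Subtype.ext h1) h2

theorem Alt.sw (A : Alt K) (i j : S) : A.1 j i = -A.1 i j := congrFun (congrFun A.2.1 i) j

theorem Alt.dg (A : Alt K) (i : S) : A.1 i i = 0 := A.2.2 i

/-- The Pfaffian. -/
def pf (A : Matrix S S K) : K :=
  A (0, 0) (0, 1) * A (1, 0) (1, 1) * A (2, 0) (2, 1)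
    - A (0, 0) (0, 1) * A (1, 0) (2, 0) * A (1, 1) (2, 1)
    + A (0, 0) (0, 1) * A (1, 0) (2, 1) * A (1, 1) (2, 0)
    - A (0, 0) (1, 0) * A (0, 1) (1, 1) * A (2, 0) (2, 1)
    + A (0, 0) (1, 0) * A (0, 1) (2, 0) * A (1, 1) (2, 1)
    - A (0, 0) (1, 0) * A (0, 1) (2, 1) * A (1, 1) (2, 0)
    + A (0, 0) (1, 1) * A (0, 1) (1, 0) * A (2, 0) (2, 1)
    - A (0, 0) (1, 1) * A (0, 1) (2, 0) * A (1, 0) (2, 1)
    + A (0, 0) (1, 1) * A (0, 1) (2, 1) * A (1, 0) (2, 0)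
    - A (0, 0) (2, 0) * A (0, 1) (1, 0) * A (1, 1) (2, 1)
    + A (0, 0) (2, 0) * A (0, 1) (1, 1) * A (1, 0) (2, 1)
    - A (0, 0) (2, 0) * A (0, 1) (2, 1) * A (1, 0) (1, 1)
    + A (0, 0) (2, 1) * A (0, 1) (1, 0) * A (1, 1) (2, 0)
    - A (0, 0) (2, 1) * A (0, 1) (1, 1) * A (1, 0) (2, 0)
    + A (0, 0) (2, 1) * A (0, 1) (2, 0) * A (1, 0) (1, 1)

/-- The cubic form. -/
def N (y : J K) : K := pf y.1.1 + y.2 0 ⬝ᵥ y.1.1 *ᵥ y.2 1

/-- The coordinates. -/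
def coF (y : J K) : Fin 3 → Fin 3 → Fin 3 → K :=
  ![![![y.2 0 (0, 0), y.2 0 (0, 1), y.2 0 (1, 0)],
      ![y.2 1 (0, 0), y.2 1 (0, 1), y.2 1 (1, 0)],
      ![y.1.1 (0, 1) (1, 0), -y.1.1 (0, 0) (1, 0), y.1.1 (0, 0) (0, 1)]],
    ![![y.1.1 (0, 0) (1, 1), y.1.1 (0, 0) (2, 0), -y.1.1 (0, 0) (2, 1)],
      ![y.1.1 (0, 1) (1, 1), y.1.1 (0, 1) (2, 0), -y.1.1 (0, 1) (2, 1)],
      ![y.1.1 (1, 0) (1, 1), y.1.1 (1, 0) (2, 0), -y.1.1 (1, 0) (2, 1)]],
    ![![-y.2 1 (1, 1), y.2 0 (1, 1), -y.1.1 (2, 0) (2, 1)],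
      ![-y.2 1 (2, 0), y.2 0 (2, 0), y.1.1 (1, 1) (2, 1)],
      ![y.2 1 (2, 1), -y.2 0 (2, 1), y.1.1 (1, 1) (2, 0)]]]

/-- The alternating matrix of a vector. -/
def amF (x : I → K) : Fin 3 → Fin 2 → Fin 3 → Fin 2 → K :=
  ![![![![0, x (0, 2, 2)], ![-x (0, 2, 1), x (1, 0, 0)], ![x (1, 0, 1), -x (1, 0, 2)]],
      ![![-x (0, 2, 2), 0], ![x (0, 2, 0), x (1, 1, 0)], ![x (1, 1, 1), -x (1, 1, 2)]]],
    ![![![x (0, 2, 1), -x (0, 2, 0)], ![0, x (1, 2, 0)], ![x (1, 2, 1), -x (1, 2, 2)]],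
      ![![-x (1, 0, 0), -x (1, 1, 0)], ![-x (1, 2, 0), 0], ![x (2, 2, 2), x (2, 1, 2)]]],
    ![![![-x (1, 0, 1), -x (1, 1, 1)], ![-x (1, 2, 1), -x (2, 2, 2)], ![0, -x (2, 0, 2)]],
      ![![x (1, 0, 2), x (1, 1, 2)], ![x (1, 2, 2), -x (2, 1, 2)], ![x (2, 0, 2), 0]]]]

/-- The two vectors of a vector. -/
def wmF (x : I → K) : Fin 2 → Fin 3 → Fin 2 → K :=
  ![![![x (0, 0, 0), x (0, 0, 1)], ![x (0, 0, 2), x (2, 0, 1)], ![x (2, 1, 1), -x (2, 2, 1)]],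
    ![![x (0, 1, 0), x (0, 1, 1)], ![x (0, 1, 2), -x (2, 0, 0)], ![-x (2, 1, 0), x (2, 2, 0)]]]

theorem am_mem (x : I → K) : (of fun i j : S => amF x i.1 i.2 j.1 j.2) ∈ Alt K := by
  refine ⟨?_, ?_⟩
  · ext ⟨i, i'⟩ ⟨j, j'⟩
    fin_cases i <;> fin_cases i' <;> fin_cases j <;> fin_cases j' <;> simp [amF]
  · rintro ⟨i, i'⟩
    fin_cases i <;> fin_cases i' <;> rfl

/-- The lower triangle in terms of the upper one. -/
theorem Alt.low (A : Alt K) :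
    A.1 (0, 1) (0, 0) = -A.1 (0, 0) (0, 1) ∧ A.1 (1, 0) (0, 0) = -A.1 (0, 0) (1, 0)
      ∧ A.1 (1, 1) (0, 0) = -A.1 (0, 0) (1, 1) ∧ A.1 (2, 0) (0, 0) = -A.1 (0, 0) (2, 0)
      ∧ A.1 (2, 1) (0, 0) = -A.1 (0, 0) (2, 1) ∧ A.1 (1, 0) (0, 1) = -A.1 (0, 1) (1, 0)
      ∧ A.1 (1, 1) (0, 1) = -A.1 (0, 1) (1, 1) ∧ A.1 (2, 0) (0, 1) = -A.1 (0, 1) (2, 0)
      ∧ A.1 (2, 1) (0, 1) = -A.1 (0, 1) (2, 1) ∧ A.1 (1, 1) (1, 0) = -A.1 (1, 0) (1, 1)
      ∧ A.1 (2, 0) (1, 0) = -A.1 (1, 0) (2, 0) ∧ A.1 (2, 1) (1, 0) = -A.1 (1, 0) (2, 1)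
      ∧ A.1 (2, 0) (1, 1) = -A.1 (1, 1) (2, 0) ∧ A.1 (2, 1) (1, 1) = -A.1 (1, 1) (2, 1)
      ∧ A.1 (2, 1) (2, 0) = -A.1 (2, 0) (2, 1) := by
  refine ⟨?_, ?_, ?_, ?_, ?_, ?_, ?_, ?_, ?_, ?_, ?_, ?_, ?_, ?_, ?_⟩ <;> exact Alt.sw A _ _

theorem co_add (y y' : J K) (l i j : Fin 3) : coF (y + y') l i j = coF y l i j + coF y' l i j := by
  fin_cases l <;> fin_cases i <;> fin_cases j <;> simp [coF, -neg_add_rev, neg_add]

theorem co_smul (c : K) (y : J K) (l i j : Fin 3) : coF (c • y) l i j = c * coF y l i j := by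
  fin_cases l <;> fin_cases i <;> fin_cases j <;> simp [coF]

theorem am_co (y : J K) (i : Fin 3) (i' : Fin 2) (j : Fin 3) (j' : Fin 2) :
    amF (fun i => coF y i.1 i.2.1 i.2.2) i i' j j' = y.1.1 (i, i') (j, j') := by
  obtain ⟨a1, a2, a3, a4, a5, a6, a7, a8, a9, a10, a11, a12, a13, a14, a15⟩ := Alt.low y.1
  fin_cases i <;> fin_cases i' <;> fin_cases j <;> fin_cases j' <;>
    simp [amF, coF, Alt.dg, a1, a2, a3, a4, a5, a6, a7, a8, a9, a10, a11, a12, a13, a14, a15]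

theorem wm_co (y : J K) (e : Fin 2) (j : Fin 3) (j' : Fin 2) :
    wmF (fun i => coF y i.1 i.2.1 i.2.2) e j j' = y.2 e (j, j') := by
  fin_cases e <;> fin_cases j <;> fin_cases j' <;> simp [wmF, coF]

theorem co_oc (x : I → K) (l i j : Fin 3) :
    coF (⟨_, am_mem x⟩, of fun e i => wmF x e i.1 i.2) l i j = x (l, i, j) := by
  fin_cases l <;> fin_cases i <;> fin_cases j <;> simp [wmF, coF, amF]

/-- The coordinates as a linear isomorphism. -/
def co : J K ≃ₗ[K] (I → K) where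
  toFun y := fun i => coF y i.1 i.2.1 i.2.2
  invFun x := (⟨_, am_mem x⟩, of fun e i => wmF x e i.1 i.2)
  map_add' y y' := funext fun _ => co_add y y' _ _ _
  map_smul' c y := funext fun _ => co_smul c y _ _ _
  left_inv y := J_ext (Matrix.ext fun _ _ => am_co y _ _ _ _) (Matrix.ext fun _ _ => wm_co y _ _ _)
  right_inv x := funext fun _ => co_oc x _ _ _

theorem co_apply (y : J K) (l i j : Fin 3) : co y (l, i, j) = coF y l i j := rfl

theorem sum_S {M : Type} [AddCommMonoid M] (f : S → M) :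
    ∑ i, f i = f (0, 0) + f (0, 1) + (f (1, 0) + f (1, 1)) + (f (2, 0) + f (2, 1)) := by
  rw [Fintype.sum_prod_type, Fin.sum_univ_three]
  simp only [Fin.sum_univ_two]

theorem cub_co (y : J K) : cub (co y) = N y := by
  obtain ⟨a1, a2, a3, a4, a5, a6, a7, a8, a9, a10, a11, a12, a13, a14, a15⟩ := Alt.low y.1
  simp only [cub, N, pf, det_fin_three, trace, diag_apply, mul_apply, of_apply, co_apply,
    Fin.sum_univ_three, dotProduct, mulVec, sum_S, Alt.dg, a1, a2, a3, a4, a5, a6, a7, a8, a9, a10,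
    a11, a12, a13, a14, a15]
  simp only [coF, cons_val_zero, cons_val_one, cons_val_two, head_cons, tail_cons]
  ring

/-- The standard bilinear form. -/
def bf (y z : J K) : K := co y ⬝ᵥ co z

theorem bf_eq (y z : J K) : 2 * bf y z = (y.1.1ᵀ * z.1.1).trace + 2 * (y.2 * z.2ᵀ).trace := by
  obtain ⟨a1, a2, a3, a4, a5, a6, a7, a8, a9, a10, a11, a12, a13, a14, a15⟩ := Alt.low y.1
  obtain ⟨b1, b2, b3, b4, b5, b6, b7, b8, b9, b10, b11, b12, b13, b14, b15⟩ := Alt.low z.1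
  simp only [bf, trace, diag_apply, mul_apply, transpose_apply, Fintype.sum_prod_type, co_apply,
    Fin.sum_univ_three, Fin.sum_univ_two, dotProduct, Alt.dg, a1, a2, a3, a4, a5, a6, a7, a8, a9,
    a10, a11, a12, a13, a14, a15, b1, b2, b3, b4, b5, b6, b7, b8, b9, b10, b11, b12, b13, b14, b15]
  simp only [coF, cons_val_zero, cons_val_one, cons_val_two, head_cons, tail_cons]
  ring

/-- The symmetrized product of three entries. -/
def s3 (A B C : Matrix S S K) (a b c d e f : S) : K :=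
  A a b * (B c d * C e f + C c d * B e f) + B a b * (A c d * C e f + C c d * A e f) +
    C a b * (A c d * B e f + B c d * A e f)

/-- The polarized Pfaffian. -/
def pf3 (A B C : Matrix S S K) : K :=
  s3 A B C (0, 0) (0, 1) (1, 0) (1, 1) (2, 0) (2, 1)
    - s3 A B C (0, 0) (0, 1) (1, 0) (2, 0) (1, 1) (2, 1)
    + s3 A B C (0, 0) (0, 1) (1, 0) (2, 1) (1, 1) (2, 0)
    - s3 A B C (0, 0) (1, 0) (0, 1) (1, 1) (2, 0) (2, 1)
    + s3 A B C (0, 0) (1, 0) (0, 1) (2, 0) (1, 1) (2, 1)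
    - s3 A B C (0, 0) (1, 0) (0, 1) (2, 1) (1, 1) (2, 0)
    + s3 A B C (0, 0) (1, 1) (0, 1) (1, 0) (2, 0) (2, 1)
    - s3 A B C (0, 0) (1, 1) (0, 1) (2, 0) (1, 0) (2, 1)
    + s3 A B C (0, 0) (1, 1) (0, 1) (2, 1) (1, 0) (2, 0)
    - s3 A B C (0, 0) (2, 0) (0, 1) (1, 0) (1, 1) (2, 1)
    + s3 A B C (0, 0) (2, 0) (0, 1) (1, 1) (1, 0) (2, 1)
    - s3 A B C (0, 0) (2, 0) (0, 1) (2, 1) (1, 0) (1, 1)
    + s3 A B C (0, 0) (2, 1) (0, 1) (1, 0) (1, 1) (2, 0)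
    - s3 A B C (0, 0) (2, 1) (0, 1) (1, 1) (1, 0) (2, 0)
    + s3 A B C (0, 0) (2, 1) (0, 1) (2, 0) (1, 0) (1, 1)

/-- The mixed part of the polarized cubic form. -/
def mx (A : Matrix S S K) (w w' : Matrix (Fin 2) S K) : K :=
  w 0 ⬝ᵥ A *ᵥ w' 1 + w' 0 ⬝ᵥ A *ᵥ w 1

/-- The polarized cubic form. -/
def T3 (x y z : J K) : K :=
  pf3 x.1.1 y.1.1 z.1.1 + mx x.1.1 y.2 z.2 + mx y.1.1 x.2 z.2 + mx z.1.1 x.2 y.2

theorem pf3_sw (A B C : Matrix S S K) : pf3 A B C = pf3 B A C := by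
  simp only [pf3, s3]; ring

theorem pf3_sw' (A B C : Matrix S S K) : pf3 A B C = pf3 A C B := by
  simp only [pf3, s3]; ring

theorem mx_sw (A : Matrix S S K) (w w' : Matrix (Fin 2) S K) : mx A w w' = mx A w' w :=
  add_comm _ _

theorem T3_sw (x y z : J K) : T3 x y z = T3 y x z := by
  simp only [T3]; rw [pf3_sw, mx_sw z.1.1]; ring

theorem T3_sw' (x y z : J K) : T3 x y z = T3 x z y := by
  simp only [T3]; rw [pf3_sw', mx_sw x.1.1]; ring

theorem pf3_lin (c : K) (A B C D : Matrix S S K) :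
    pf3 A B (c • C + D) = c * pf3 A B C + pf3 A B D := by
  simp only [pf3, s3, Matrix.add_apply, Matrix.smul_apply, smul_eq_mul]; ring

theorem T3_lin (c : K) (x y z z' : J K) : T3 x y (c • z + z') = c * T3 x y z + T3 x y z' := by
  have e (i : Fin 2) : (c • z.2 + z'.2) i = c • z.2 i + z'.2 i := rfl
  simp only [T3, mx, add_1, add_2, smul_1, smul_2, pf3_lin, e, mulVec_add, mulVec_smul, add_mulVec, smul_mulVec,
    dotProduct_add, dotProduct_smul, add_dotProduct, smul_dotProduct, smul_eq_mul]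
  ring

theorem T3_add (x y z z' : J K) : T3 x y (z + z') = T3 x y z + T3 x y z' := by
  simpa using T3_lin 1 x y z z'

theorem T3_zero (x y : J K) : T3 x y 0 = 0 := by simpa using T3_add x y 0 0

theorem T3_smul (c : K) (x y z : J K) : T3 x y (c • z) = c * T3 x y z := by
  simpa [T3_zero] using T3_lin c x y z 0

/-- The trilinear form. -/
def T : J K →ₗ[K] J K →ₗ[K] J K →ₗ[K] K :=
  LinearMap.mk₂ K (fun x y => ⟨⟨T3 x y, T3_add x y⟩, fun c z => T3_smul c x y z⟩)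
    (fun x x' y => LinearMap.ext fun z => by
      change T3 (x + x') y z = T3 x y z + T3 x' y z
      rw [T3_sw, T3_sw', T3_add, T3_sw x, T3_sw x', T3_sw' y x, T3_sw' y x'])
    (fun c x y => LinearMap.ext fun z => by
      change T3 (c • x) y z = c * T3 x y z
      rw [T3_sw, T3_sw', T3_smul, T3_sw x, T3_sw' y x])
    (fun x y y' => LinearMap.ext fun z => by
      change T3 x (y + y') z = T3 x y z + T3 x y' z
      rw [T3_sw', T3_add, T3_sw' x y, T3_sw' x y'])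
    (fun c x y => LinearMap.ext fun z => by
      change T3 x (c • y) z = c * T3 x y z
      rw [T3_sw', T3_smul, T3_sw' x y])

theorem T_apply (x y z : J K) : T x y z = T3 x y z := rfl

theorem T_sw (x y z : J K) : T x y z = T y x z := T3_sw x y z

theorem T_sw' (x y z : J K) : T x y z = T x z y := T3_sw' x y z

theorem T_self (x : J K) : T x x x = 6 * N x := by
  simp only [T_apply, T3, N, mx, pf3, s3, pf]; ring

end Vale.Agent.P011LE
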