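import Vale.Agent.P011L.IF
import Vale.Agent.P011LD.H90
import Mathlib.Analysis.Complex.Basic
import Mathlib.LinearAlgebra.Matrix.ConjTranspose

/-!
Descent data for the forms of `E₆` and the interfaces of the outer case.
-/

open Matrix

namespace Vale.Agent.P011LE

open P011L P011LD

section

variable {k K : Type} [Field k] [Field K] [Algebra k K] {n m : Type} [Fintype n] [DecidableEq n]
  [Fintype m] [DecidableEq m]

/-- The inverse transpose. -/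
def it : GL n K →* GL n K where
  toFun x := ⟨x⁻¹.1ᵀ, x.1ᵀ, by rw [← transpose_mul, Units.mul_inv, transpose_one],
    by rw [← transpose_mul, Units.inv_mul, transpose_one]⟩
  map_one' := Units.ext (by simp)
  map_mul' x y := Units.ext (by simp)

/-- The twisted action of `σ`: followed by the inverse transpose if `σ` is outer. -/
def st (o : (K ≃ₐ[k] K) →* ℤˣ) (σ : K ≃ₐ[k] K) : GL n K →* GL n K :=
  if o σ = 1 then GeneralLinearGroup.map (σ : K →+* K)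
  else it.comp (GeneralLinearGroup.map (σ : K →+* K))

/-- Projective descent data. -/
structure PD (o : (K ≃ₐ[k] K) →* ℤˣ) (p : (K ≃ₐ[k] K) → GL n K) : Prop where
  mul : ∀ σ τ, ∃ z : K, (p σ * st o σ (p τ)).1 = z • (p (σ * τ)).1
  cont : Op ⊤ fun σ => o σ = 1 ∧ ∃ c : K, (p σ).1 = c • 1

/-- Two projective descent data with the same scalars. -/
structure Cmp (o : (K ≃ₐ[k] K) →* ℤˣ) (p : (K ≃ₐ[k] K) → GL n K) (d : (K ≃ₐ[k] K) → GL m K) :
    Prop where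
  mul : ∀ σ τ, ∃ z : K, (p σ * st o σ (p τ)).1 = z • (p (σ * τ)).1 ∧
    (d σ * st o σ (d τ)).1 = z • (d (σ * τ)).1
  cont : Op ⊤ fun σ => o σ = 1 ∧ ∃ c : K, (p σ).1 = c • 1 ∧ (d σ).1 = c • 1

/-- The index set of the twenty seven coordinates. -/
abbrev I : Type := Fin 3 × Fin 3 × Fin 3

/-- The similarities of the cubic form. -/
def Sim (g : GL I K) : Prop := ∃ ν : K, ν ≠ 0 ∧ ∀ x, cub (g.1 *ᵥ x) = ν * cub x

/-- Descent data for a form of `E₆`. -/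
structure DD (o : (K ≃ₐ[k] K) →* ℤˣ) (p : (K ≃ₐ[k] K) → GL I K) : Prop where
  pd : PD o p
  sim : ∀ σ, Sim (p σ)

/-- The twisted action `T` is given by the descent data. -/
def Rep (T : Tw k (SE K)) (o : (K ≃ₐ[k] K) →* ℤˣ) (p : (K ≃ₐ[k] K) → GL I K) : Prop :=
  ∀ σ g, (T.a σ g).1 * p σ = p σ * st o σ g.1

/-- Extremal elements of the Lie algebra. -/
def Ext (X : Matrix I I K) : Prop :=
  X ≠ 0 ∧ X * X = 0 ∧ ∀ (t : K) (x : I → K), cub (x + t • X *ᵥ x) = cub x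

/-- `σ` fixes the element `X` of the Lie algebra. -/
def FixL (o : (K ≃ₐ[k] K) →* ℤˣ) (p : (K ≃ₐ[k] K) → GL n K) (σ : K ≃ₐ[k] K) (X : Matrix n n K) :
    Prop :=
  X * (p σ).1 = (p σ).1 * if o σ = 1 then X.map σ else -(X.map σ)ᵀ

/-- `κ` is the complex conjugation for the embedding `w`. -/
def Cj (w : K →+* ℂ) (κ : K ≃ₐ[k] K) : Prop := ∀ x, w (κ x) = star (w x)

/-- The monomial matrix which maps the basis vector `j` to `c j` times the basis vector `π j`. -/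
def mono (π : Equiv.Perm n) (c : n → K) : Matrix n n K := of fun i j => if i = π j then c j else 0

/-- There is a line which is stable under the inner automorphisms. -/
def Spl (o : (K ≃ₐ[k] K) →* ℤˣ) (p : (K ≃ₐ[k] K) → GL n K) : Prop :=
  ∃ v : n → K, v ≠ 0 ∧ ∀ σ, o σ = 1 → ∃ μ : K, (p σ).1 *ᵥ (σ ∘ v) = μ • v

/-- `x` belongs to the algebra defined by the descent data. -/
def InB (o : (K ≃ₐ[k] K) →* ℤˣ) (M : (K ≃ₐ[k] K) → GL n K) (x : Matrix n n K) : Prop :=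
  ∀ σ, o σ = 1 → x * (M σ).1 = (M σ).1 * x.map σ

/-- `x` is a symmetric element of this algebra. -/
def SymB (o : (K ≃ₐ[k] K) →* ℤˣ) (M : (K ≃ₐ[k] K) → GL n K) (x : Matrix n n K) : Prop :=
  InB o M x ∧ ∀ s, o s ≠ 1 → x * (M s).1 = (M s).1 * (x.map s)ᵀ

end

/-- DDE: twisted actions on `SE` come from descent data. -/
def DDE : Prop :=
  ∀ (k K : Type) [Field k] [NumberField k] [Field K] [Algebra k K] [IsAlgClosure k K]
    (T : Tw k (SE K)), ∃ o p, DD o p ∧ Rep T o p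

/-- EXT1: an inner form over a totally imaginary field has a rational extremal element. -/
def EXT1 : Prop :=
  ∀ (k K : Type) [Field k] [NumberField k] [Field K] [Algebra k K] [IsAlgClosure k K]
    (p : (K ≃ₐ[k] K) → GL I K), IsEmpty (k →+* ℝ) → DD 1 p → ∃ X, Ext X ∧ ∀ σ, FixL 1 p σ X

/-- IND: the monomial companion of degree three. -/
def IND : Prop :=
  ∀ (k K : Type) [Field k] [NumberField k] [Field K] [Algebra k K] [IsAlgClosure k K]
    (o : (K ≃ₐ[k] K) →* ℤˣ) (p : (K ≃ₐ[k] K) → GL I K), DD o p →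
    ∃ (π : (K ≃ₐ[k] K) →* Equiv.Perm (Fin 3)) (c : (K ≃ₐ[k] K) → Fin 3 → K)
      (d : (K ≃ₐ[k] K) → GL (Fin 3) K), Cmp o p d ∧ (∀ σ, (d σ).1 = mono (π σ) (c σ)) ∧
      (∀ σ, π σ ^ 3 = 1) ∧ (∀ σ, o σ = 1 → π σ = 1 → ∀ j, c σ j = c σ 0) ∧
      (π = 1 ∨ ¬Spl o p ∧ ∃ r, o r = 1 ∧ π r = finRotate 3 ∧ c r 0 = c r 1)

/-- LAND: the theorem of Landherr. -/
def LAND : Prop :=
  ∀ (k K : Type) [Field k] [NumberField k] [Field K] [Algebra k K] [IsAlgClosure k K]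
    (n : Type) [Fintype n] [DecidableEq n] (o : (K ≃ₐ[k] K) →* ℤˣ) (M : (K ≃ₐ[k] K) → GL n K),
    PD o M → (∃ s, o s ≠ 1) → ∀ u u' : Matrix n n K, SymB o M u → SymB o M u' → u'.det ≠ 0 →
    (∃ z : K, z ≠ 0 ∧ (∀ σ, o σ = 1 → σ z = z) ∧ ∀ s, o s ≠ 1 → u.det = z * s z * u'.det) →
    (∀ (w : K →+* ℂ) (κ : K ≃ₐ[k] K), Cj w κ → o κ ≠ 1 → ∃ Q : Matrix n n ℂ, IsUnit Q ∧
      Q * (u * (M κ).1).map w * Qᴴ = (u' * (M κ).1).map w) →
    ∃ t : GL n K, InB o M t.1 ∧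
      ∀ s, o s ≠ 1 → u * (M s).1 = t.1 * (u' * (M s).1) * (t.1.map s)ᵀ

end Vale.Agent.P011LE
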