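import Vale.Agent.P011LE.Gr
import Vale.Agent.P011LS.Geo

/-!
The elements of degree two and the decomposition into homogeneous components.
-/

open Matrix

namespace Vale.Agent.P011LE

open P011L P011LD

variable {K : Type} [Field K] [CharZero K]

/-- The vector with one entry. -/
def rv (i : S) : J K := jm 0 (zero_mem _) (of ![Pi.single i 1, 0])

/-- The elementary alternating matrix. -/
def av (i j : S) : J K := jm (single i j 1 - single j i 1)
  (mem_Alt (by rw [transpose_sub, transpose_single, transpose_single, neg_sub])) 0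

theorem scal {X : R K} (a : Lie X) : ∃ κ : K, e0 * X * e0 = κ • e0 := by
  have k1 (p q i j : S) : (Pi.single q 1 : S → K) i * (X (rv p)).2 1 j -
      (Pi.single q 1 : S → K) j * (X (rv p)).2 1 i + ((Pi.single p 1 : S → K) i * (X (rv q)).2 1 j -
      (Pi.single p 1 : S → K) j * (X (rv q)).2 1 i) = 0 := by
    have := a (rv p) (rv q) (av i j)
    have e (u v : S → K) : u ⬝ᵥ (single i j (1 : K) - single j i 1) *ᵥ v = u i * v j - u j * v i := by
      have e (i : S) (c : K) : Function.update (0 : S → K) i c = Pi.single i c := rfl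
      simp [sub_mulVec, single_mulVec, e]
    have e0 (p : S) : (rv p : J K).2 0 = Pi.single p 1 := rfl
    have e1 (p : S) : (rv p : J K).2 1 = 0 := rfl
    have e2 (p : S) : (rv p : J K).1.1 = 0 := rfl
    have e3 : (av i j : J K).2 = 0 := rfl
    have e4 : (av i j : J K).1.1 = single i j 1 - single j i 1 := rfl
    have e5 (i : Fin 2) : (0 : Matrix (Fin 2) S K) i = 0 := rfl
    simp only [T_apply, T3, pf3, s3, mx, e0, e1, e2, e3, e4, e5, e, Matrix.zero_apply, mul_zero,
      zero_mul, add_zero, sub_zero, mulVec_zero, dotProduct_zero, zero_dotProduct, zero_mulVec,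
      zero_add, Pi.zero_apply] at this
    exact this
  have k2 (p j : S) (h : j ≠ p) : (X (rv p)).2 1 j = 0 := by
    have := k1 p p p j
    simp only [Pi.single_eq_same, Pi.single_eq_of_ne h] at this
    linear_combination this / 2
  have k3 (p : S) : (X (rv p)).2 1 p = (X (rv (0, 0))).2 1 (0, 0) := by
    by_cases h : p = (0, 0)
    · rw [h]
    · have := k1 p (0, 0) (0, 0) p
      simp only [Pi.single_eq_same, Pi.single_eq_of_ne h, Pi.single_eq_of_ne (Ne.symm h)] at this
      linear_combination this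
  refine ⟨(X (rv (0, 0))).2 1 (0, 0), LinearMap.ext fun y => ?_⟩
  have e : e0 y = ∑ p, y.2 1 p • rv p := by
    refine J_ext ?_ ?_
    · rw [e0, io1_1, zero_smul]
      simp [sum_S, rv]
    · rw [e0, io1_2]
      ext i ⟨j, j'⟩
      fin_cases i <;> fin_cases j <;> fin_cases j' <;> simp [sum_S, rv, mul_apply]
  refine J_ext (by simp [e0, io1_1]) ?_
  rw [Module.End.mul_apply, Module.End.mul_apply, e, map_sum, LinearMap.smul_apply, smul_2, e0,
    io1_2, io1_2]
  ext i j
  have : (∑ p, X (y.2 1 p • rv p)).2 1 j = (X (rv (0, 0))).2 1 (0, 0) * y.2 1 j := by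
    have e' (f : S → J K) : (∑ p, f p).2 1 j = ∑ p, (f p).2 1 j := by simp [sum_S]
    rw [e', Finset.sum_eq_single j (fun p _ h => by simp [k2 p j h.symm]) (by simp), map_smul,
      smul_2, Matrix.smul_apply, k3, smul_eq_mul, mul_comm]
  generalize ∑ p, X (y.2 1 p • rv p) = v at this
  fin_cases i <;> simp [mul_apply, this, vecMul, dotProduct]

theorem g2 : P011LS.G2 := fun K _ _ y hy => by
  obtain ⟨κ, h⟩ := scal hy.1
  have : tr (e0 * y) = κ * 6 := by
    have := congrArg (fun X => tr (X * f0)) h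
    simp only [smul_mul_assoc, map_smul, tr_ef, smul_eq_mul] at this
    rw [← this, mul_assoc (e0 * y), tr_comm (e0 * y), mul_assoc, efe']
  rw [this, h, mul_div_cancel_right₀ _ (by norm_num)]

theorem g2' {y : R K} (h : y ∈ gl K) : f0 * y * f0 = (tr (f0 * y) / 6) • f0 := by
  have := congrArg tp (g2 K _ (gl_tp h))
  rw [tp_mul, tp_mul, tp_smul, tp_e0, tp_tp, ← mul_assoc, ← tr_tp, tp_mul, tp_tp, tp_e0,
    tr_comm] at this
  exact this

theorem blk_ca {y : R K} (h : y ∈ gl K) : pc * y * pa = (tr (e0 * y) / 6) • f0 := by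
  have : pc * y * pa = f0 * (e0 * y * e0) * f0 := by simp only [← ef, ← fe, mul_assoc]
  rw [this, g2 K y h, mul_smul_comm, smul_mul_assoc, mul_assoc, fef]

theorem blk_ac {y : R K} (h : y ∈ gl K) : pa * y * pc = (tr (f0 * y) / 6) • e0 := by
  have : pa * y * pc = e0 * (f0 * y * f0) * e0 := by simp only [← ef, ← fe, mul_assoc]
  rw [this, g2' h, mul_smul_comm, smul_mul_assoc, mul_assoc, efe]

theorem dg_blk (X : R K) {p q : R K} {s t : K} (hp : h0 * p = s • p) (hq : q * h0 = t • q) {i : ℤ}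
    (h : s - t = i) : Dg i (p * X * q) := by
  rw [Dg, ← mul_assoc, ← mul_assoc, hp, mul_assoc _ q, hq, mul_smul_comm, smul_mul_assoc,
    smul_mul_assoc, ← sub_smul, h]

theorem dec {y : R K} (h : y ∈ gl K) : ∃ m ∈ gl K, ∃ z ∈ gl K, ∃ n ∈ gl K, Dg 1 m ∧ Dg 0 z ∧
    Dg (-1) n ∧ y = (tr (f0 * y) / 6) • e0 + m + z + n + (tr (e0 * y) / 6) • f0 := by
  have a1 : Dg 1 (pa * y * pb + pb * y * pc) :=
    (dg_blk y h_pa pb_h (by simp)).add (dg_blk y h_pb pc_h (by simp))
  have a2 : Dg 0 (pa * y * pa + pb * y * pb + pc * y * pc) :=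
    ((dg_blk y h_pa pa_h (by simp)).add (dg_blk y h_pb pb_h (by simp))).add
      (dg_blk y h_pc pc_h (by simp))
  have a3 : Dg (-1) (pb * y * pa + pc * y * pb) :=
    (dg_blk y h_pb pa_h (by simp)).add (dg_blk y h_pc pb_h (by simp))
  have e : y = (tr (f0 * y) / 6) • e0 + (pa * y * pb + pb * y * pc) + (pa * y * pa + pb * y * pb +
      pc * y * pc) + (pb * y * pa + pc * y * pb) + (tr (e0 * y) / 6) • f0 := by
    rw [← blk_ca h, ← blk_ac h]
    refine (blocks y).trans ?_
    abel
  generalize pa * y * pb + pb * y * pc = m at a1 e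
  generalize pa * y * pa + pb * y * pb + pc * y * pc = z at a2 e
  generalize pb * y * pa + pc * y * pb = n at a3 e
  have b0 : m + z + n ∈ gl K := by
    have := (gl K).sub_mem ((gl K).sub_mem h ((gl K).smul_mem (tr (f0 * y) / 6) xt_e0.mem))
      ((gl K).smul_mem (tr (e0 * y) / 6) xt_f0.mem)
    convert this using 1
    rw [eq_sub_iff_add_eq, eq_sub_iff_add_eq]
    refine Eq.trans ?_ e.symm
    abel
  have b1 : m - n ∈ gl K := by
    convert gl_br h0_gl b0 using 1
    rw [mul_add, mul_add, a1.hl, a2.hl, a3.hl]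
    simp only [add_mul, Int.cast_one, Int.cast_zero, Int.cast_neg]
    module
  have b2 : m + n ∈ gl K := by
    convert gl_br h0_gl b1 using 1
    rw [mul_sub, a1.hl, a3.hl]
    simp only [sub_mul, Int.cast_one, Int.cast_neg]
    module
  refine ⟨m, ?_, z, ?_, n, ?_, a1, a2, a3, e⟩
  · convert (gl K).smul_mem 2⁻¹ (add_mem b1 b2) using 1
    module
  · convert sub_mem b0 b2 using 1
    abel
  · convert (gl K).smul_mem 2⁻¹ (sub_mem b2 b1) using 1
    module

theorem dg_two {y : R K} (h : y ∈ gl K) (a : Dg 2 y) : y = (tr (f0 * y) / 6) • e0 := by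
  rw [← blk_ac h]
  refine (blocks y).trans ?_
  rw [a.blk pa_h h_pa, a.blk pa_h h_pb, a.blk pb_h h_pa, a.blk pb_h h_pb, a.blk pb_h h_pc,
    a.blk pc_h h_pa, a.blk pc_h h_pb, a.blk pc_h h_pc] <;> norm_num

theorem dg_two' {y : R K} (h : y ∈ gl K) (a : Dg (-2) y) : y = (tr (e0 * y) / 6) • f0 := by
  have := congrArg tp (dg_two (gl_tp h) a.tp)
  rwa [tp_tp, tp_smul, tp_e0, ← tr_tp, tp_mul, tp_tp, tp_f0, tr_comm] at this

theorem Dg.inj {n : R K} (a : Dg (-1) n) (h : e0 * n = n * e0) : n = 0 := by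
  have h1 : f0 * n = 0 := (dg_f0.mul a).van (by norm_num)
  have h2 : n * f0 = 0 := (a.mul dg_f0).van (by norm_num)
  have h3 := a.hl
  rw [h0_eq, sub_mul, mul_sub, mul_assoc, h1, mul_assoc, h, ← mul_assoc, h1, ← mul_assoc, ← h,
    mul_assoc, h2, ← mul_assoc, h2] at h3
  simpa using h3

end Vale.Agent.P011LE
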