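import Vale.Agent.P011LE.IF

/-!
The grading defined by the standard pair.
-/

open Matrix

namespace Vale.Agent.P011LE

open P011L P011LD

variable {K : Type} [Field K] [CharZero K]

/-- The projection to the first row. -/
def pa : R K := io 1 !![1, 0; 0, 0] 0

/-- The projection to the second row. -/
def pc : R K := io 1 !![0, 0; 0, 1] 0

/-- The projection to the alternating matrices. -/
def pb : R K := io 1 0 1

theorem io1_mul (h h' : Matrix (Fin 2) (Fin 2) K) (l l' : K) :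
    io 1 h l * io 1 h' l' = io 1 (h * h') (l * l') := by rw [io_mul, mul_one]

theorem io1_1 (h : Matrix (Fin 2) (Fin 2) K) (l : K) (y : J K) :
    (io 1 h l y).1.1 = l • y.1.1 := by simp [io_1]

theorem io1_2 (h : Matrix (Fin 2) (Fin 2) K) (l : K) (y : J K) : (io 1 h l y).2 = h * y.2 := by
  simp [io_2]

theorem m2_zero : (!![0, 0; 0, 0] : Matrix (Fin 2) (Fin 2) K) = 0 := by
  ext i j; fin_cases i <;> fin_cases j <;> rfl

theorem io2_mul (a b c d a' b' c' d' l l' : K) : io 1 !![a, b; c, d] l * io 1 !![a', b'; c', d'] l' =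
    io 1 !![a * a' + b * c', a * b' + b * d'; c * a' + d * c', c * b' + d * d'] (l * l') := by
  rw [io1_mul, mul_fin_two]

theorem ee : (e0 : R K) * e0 = 0 := by simp [e0, io2_mul, m2_zero, io_zero]
theorem ff : (f0 : R K) * f0 = 0 := by simp [f0, io2_mul, m2_zero, io_zero]
theorem ef : (e0 : R K) * f0 = pa := by simp [e0, f0, pa, io2_mul]
theorem fe : (f0 : R K) * e0 = pc := by simp [e0, f0, pc, io2_mul]
theorem efe : (e0 : R K) * (f0 * e0) = e0 := by simp [e0, f0, io2_mul]
theorem fef : (f0 : R K) * (e0 * f0) = f0 := by simp [e0, f0, io2_mul]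

theorem h0_eq : (h0 : R K) = e0 * f0 - f0 * e0 := by
  rw [ef, fe, pa, pc, io_sub, h0, sub_zero]
  congr; ext i j; fin_cases i <;> fin_cases j <;> simp

theorem pb_eq : (pb : R K) = 1 - e0 * f0 - f0 * e0 := by
  rw [← io_one, ef, fe, pa, pc, io_sub, io_sub, pb, sub_zero, sub_zero]
  congr; ext i j; fin_cases i <;> fin_cases j <;> simp

theorem cs_2 (x : I → K) (e : Fin 2) (i : S) : (co.symm x).2 e i = wmF x e i.1 i.2 := rfl

theorem ee' (X : R K) : e0 * (e0 * X) = 0 := by rw [← mul_assoc, ee, zero_mul]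
theorem ff' (X : R K) : f0 * (f0 * X) = 0 := by rw [← mul_assoc, ff, zero_mul]
theorem efe' (X : R K) : e0 * (f0 * (e0 * X)) = e0 * X := by
  rw [← mul_assoc f0, ← mul_assoc, efe]
theorem fef' (X : R K) : f0 * (e0 * (f0 * X)) = f0 * X := by
  rw [← mul_assoc e0, ← mul_assoc, fef]

theorem it_one : (it (1 : GL S K))⁻¹ = 1 := by rw [map_one, inv_one]

@[simp] theorem tp_e0 : tp (e0 : R K) = f0 := by
  rw [e0, f0, tp_io, it_one]; congr; ext i j; fin_cases i <;> fin_cases j <;> rfl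
@[simp] theorem tp_f0 : tp (f0 : R K) = e0 := by rw [← tp_e0, tp_tp]
@[simp] theorem tp_h0 : tp (h0 : R K) = h0 := by simp [h0_eq]

theorem cj_io1 (f : K →+* K) (a b c d l : K) :
    cj f (io 1 !![a, b; c, d] l) = io 1 !![f a, f b; f c, f d] (f l) := by
  rw [cj_io, map_one]; congr; ext i j; fin_cases i <;> fin_cases j <;> rfl

@[simp] theorem cj_e0 (f : K →+* K) : cj f e0 = e0 := by simp [e0, cj_io1]
@[simp] theorem cj_f0 (f : K →+* K) : cj f f0 = f0 := by simp [f0, cj_io1]
@[simp] theorem cj_h0 (f : K →+* K) : cj f h0 = h0 := by simp [h0_eq]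

theorem tr_pa : tr (pa : R K) = 6 := by
  have e (i : I) : E.symm (pa : R K) i i = co (pa (co.symm (Pi.single i 1))) i := by
    rw [co_R, LinearEquiv.apply_symm_apply, mulVec_single_one]
    rfl
  simp only [tr_def, trace, diag_apply, e, Fintype.sum_prod_type, Fin.sum_univ_three]
  simp only [co_apply, coF, pa, io1_1, io1_2]
  simp [cs_2, wmF, mul_apply]
  norm_num

theorem tr_ef : tr (e0 * f0 : R K) = 6 := by rw [ef, tr_pa]

theorem e0_ne : (e0 : R K) ≠ 0 := fun e => by
  have := tr_ef (K := K)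
  rw [e, zero_mul, map_zero] at this
  norm_num at this

theorem lie_e0 : Lie (e0 : R K) := lie_of fun t => by
  have e : 1 + t • e0 = io (1 : GL S K) !![1, t; 0, 1] 1 := by
    rw [← io_one]
    simp [e0, io_smul, io_add, one_fin_two]
  intro y
  rw [e, N_io (by simp)]
  simp

theorem lie_f0 : Lie (f0 : R K) := lie_of fun t => by
  have e : 1 + t • f0 = io (1 : GL S K) !![1, 0; t, 1] 1 := by
    rw [← io_one]
    simp [f0, io_smul, io_add, one_fin_two]
  intro y
  rw [e, N_io (by simp)]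
  simp

theorem xt_e0 : Xt (e0 : R K) := ⟨e0_ne, ee, lie_e0, tp_e0 (K := K) ▸ lie_f0⟩

theorem xt_f0 : Xt (f0 : R K) := tp_e0 (K := K) ▸ xt_e0.tp

theorem h0_gl : h0 ∈ gl K := h0_eq (K := K) ▸ gl_br xt_e0.mem xt_f0.mem

/-- The elements of degree `i`. -/
def dg (K : Type) [Field K] [CharZero K] (i : ℤ) : Submodule K (R K) where
  carrier := {X | Dg i X}
  add_mem' := fun {X Y} a b => by
    change _ = _
    rw [smul_add, ← a, ← b]
    noncomm_ring
  zero_mem' := by
    change _ = _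
    simp
  smul_mem' := fun c X a => by
    change _ = _
    rw [smul_comm, ← a, mul_smul_comm, smul_mul_assoc, smul_sub]

section

variable {i j : ℤ} {X Y : R K}

theorem Dg.add (a : Dg i X) (b : Dg i Y) : Dg i (X + Y) := (dg K i).add_mem a b
theorem Dg.sub (a : Dg i X) (b : Dg i Y) : Dg i (X - Y) := (dg K i).sub_mem a b
theorem Dg.neg (a : Dg i X) : Dg i (-X) := (dg K i).neg_mem a
theorem Dg.smul (a : Dg i X) (c : K) : Dg i (c • X) := (dg K i).smul_mem c a

theorem Dg.mul (a : Dg i X) (b : Dg j Y) : Dg (i + j) (X * Y) := by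
  have e : h0 * (X * Y) - X * Y * h0 = (h0 * X - X * h0) * Y + X * (h0 * Y - Y * h0) := by
    noncomm_ring
  rw [Dg, e, a, b, Int.cast_add, add_smul, smul_mul_assoc, mul_smul_comm]

theorem Dg.br (a : Dg i X) (b : Dg j Y) : Dg (i + j) (X * Y - Y * X) :=
  (a.mul b).sub (add_comm i j ▸ b.mul a)

theorem Dg.tp (a : Dg i X) : Dg (-i) (tp X) := by
  have := congrArg P011LE.tp a
  rw [tp_sub, tp_mul, tp_mul, tp_smul, tp_h0] at this
  rw [Dg, Int.cast_neg, neg_smul, ← this, neg_sub]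

theorem Dg.cj (a : Dg i X) (f : K →+* K) : Dg i (cj f X) := by
  have := congrArg (P011LE.cj f) a
  rwa [map_sub, map_mul, map_mul, cj_smul, cj_h0, map_intCast] at this

theorem Dg.tr (a : Dg i X) (h : i ≠ 0) : tr X = 0 := by
  have := congrArg P011LE.tr a
  rw [map_sub, tr_comm, sub_self, map_smul] at this
  exact (smul_eq_zero.1 this.symm).resolve_left (Int.cast_ne_zero.2 h)

theorem Dg.hl (a : Dg i X) : h0 * X = X * h0 + (i : K) • X := by rw [← a, add_sub_cancel]

theorem Dg.blk (a : Dg i X) {p q : R K} {s t : K} (hp : p * h0 = s • p) (hq : h0 * q = t • q)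
    (h : s - t ≠ i) : p * X * q = 0 := by
  have e : p * (h0 * X - X * h0) * q = p * h0 * X * q - p * X * (h0 * q) := by noncomm_ring
  rw [a, hp, hq, mul_smul_comm, smul_mul_assoc, smul_mul_assoc, smul_mul_assoc, mul_smul_comm,
    ← sub_smul, ← sub_eq_zero, ← sub_smul] at e
  exact (smul_eq_zero.1 e).resolve_left (sub_ne_zero.2 h.symm)

end

theorem dg_e0 : Dg 2 (e0 : R K) := by
  simp only [Dg, h0_eq, sub_mul, mul_sub, mul_assoc, ee, ee', efe, mul_zero, Int.cast_ofNat]
  module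

theorem dg_f0 : Dg (-2) (f0 : R K) := tp_e0 (K := K) ▸ dg_e0.tp

theorem dg_h0 : Dg 0 (h0 : R K) := by simp [Dg]

theorem pa_h : (pa : R K) * h0 = (1 : K) • pa := by simp [pa, h0, io2_mul]
theorem h_pa : (h0 : R K) * pa = (1 : K) • pa := by simp [pa, h0, io2_mul]
theorem pc_h : (pc : R K) * h0 = (-1 : K) • pc := by simp [pc, h0, io2_mul, io_neg]
theorem h_pc : (h0 : R K) * pc = (-1 : K) • pc := by simp [pc, h0, io2_mul, io_neg]
theorem pb_h : (pb : R K) * h0 = (0 : K) • pb := by simp [pb, h0, io1_mul, io_zero]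
theorem h_pb : (h0 : R K) * pb = (0 : K) • pb := by simp [pb, h0, io1_mul, io_zero]

theorem abc : (pa : R K) + pb + pc = 1 := by rw [pb_eq, ef, fe]; abel

theorem blocks (X : R K) : X = pa * X * pa + pa * X * pb + pa * X * pc + (pb * X * pa +
    pb * X * pb + pb * X * pc) + (pc * X * pa + pc * X * pb + pc * X * pc) := by
  simp only [← mul_add, ← add_mul, abc, mul_one, one_mul]

theorem Dg.van {i : ℤ} {X : R K} (a : Dg i X) (h : 3 ≤ i ∨ i ≤ -3) : X = 0 := by
  have c (n : ℤ) (h : n ≠ i) : (n : K) ≠ i := fun e => h (Int.cast_injective e)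
  rw [blocks X, a.blk pa_h h_pa, a.blk pa_h h_pb, a.blk pa_h h_pc, a.blk pb_h h_pa, a.blk pb_h h_pb,
    a.blk pb_h h_pc, a.blk pc_h h_pa, a.blk pc_h h_pb, a.blk pc_h h_pc]
  · simp
  · simpa using c 0 (by omega)
  · simpa using c (-1) (by omega)
  · have := c (-2) (by omega)
    rwa [show ((-2 : ℤ) : K) = -1 - 1 by norm_num] at this
  · simpa using c 1 (by omega)
  · simpa using c 0 (by omega)
  · simpa using c (-1) (by omega)
  · have := c 2 (by omega)
    rwa [show ((2 : ℤ) : K) = 1 - -1 by norm_num] at this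
  · simpa using c 1 (by omega)
  · simpa using c 0 (by omega)

theorem T_row (A u v : J K) (hA : A.2 = 0) (hu : u.1.1 = 0) (hv : v.1.1 = 0) :
    T A u v = u.2 0 ⬝ᵥ A.1.1 *ᵥ v.2 1 + v.2 0 ⬝ᵥ A.1.1 *ᵥ u.2 1 := by
  simp [T_apply, T3, pf3, s3, mx, hA, hu, hv]

end Vale.Agent.P011LE
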