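import Vale.Agent.P011LE.Io
import Mathlib.LinearAlgebra.Matrix.PosDef

/-!
The normal form of the descent data of an outer form of `E₆`.
-/

open Matrix
open scoped Kronecker ComplexOrder

namespace Vale.Agent.P011LE

open P011L P011LD

section

variable {K : Type} [Field K]

/-- The Kronecker product. -/
def kr (d : GL (Fin 3) K) (h : GL (Fin 2) K) : GL S K :=
  ⟨d.1 ⊗ₖ h.1, d⁻¹.1 ⊗ₖ h⁻¹.1, by rw [← mul_kronecker_mul, Units.mul_inv, Units.mul_inv,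
    one_kronecker_one], by rw [← mul_kronecker_mul, Units.inv_mul, Units.inv_mul,
    one_kronecker_one]⟩

/-- The matrix of the quaternion `j`, where `j * j = b`. -/
def jq (b : Kˣ) : GL (Fin 2) K :=
  ⟨!![0, b.1; 1, 0], !![0, 1; b⁻¹.1, 0], by simp [← one_fin_two], by simp [← one_fin_two]⟩

/-- The rotation. -/
def wq : GL (Fin 2) K :=
  ⟨!![0, -1; 1, 0], !![0, 1; -1, 0], by simp [← one_fin_two], by simp [← one_fin_two]⟩

variable {k : Type} [Field k] [Algebra k K]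

open Classical in
/-- The descent data of the quaternion algebra `(α ^ 2, b)`. -/
noncomputable def hq (o : (K ≃ₐ[k] K) →* ℤˣ) (α : K) (b : Kˣ) (σ : K ≃ₐ[k] K) : GL (Fin 2) K :=
  (if σ α = α then 1 else jq b) * if o σ = 1 then 1 else wq

/-- The hermitian form is definite at some real place. -/
def Dfn (o : (K ≃ₐ[k] K) →* ℤˣ) (p : (K ≃ₐ[k] K) → GL I K) : Prop :=
  ∃ (w : K →+* ℂ) (κ : K ≃ₐ[k] K), Cj w κ ∧ o κ ≠ 1 ∧ ∃ z : ℂ, (z • (p κ).1.map w).PosDef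

/-- Monomial descent data of degree three. -/
structure Mon (o : (K ≃ₐ[k] K) →* ℤˣ) (p : (K ≃ₐ[k] K) → GL I K)
    (π : (K ≃ₐ[k] K) →* Equiv.Perm (Fin 3)) (c : (K ≃ₐ[k] K) → Fin 3 → K)
    (d : (K ≃ₐ[k] K) → GL (Fin 3) K) : Prop where
  cmp : Cmp o p d
  val : ∀ σ, (d σ).1 = mono (π σ) (c σ)
  three : ∀ σ, π σ ^ 3 = 1
  sc : ∀ σ, o σ = 1 → π σ = 1 → ∀ j, c σ j = c σ 0
  cyc : π = 1 ∨ ¬Spl o p ∧ ∃ r, o r = 1 ∧ π r = finRotate 3 ∧ c r 0 = c r 1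

variable [CharZero K]

/-- The normal form: in the coordinates `m` the descent data `p` are given by the quaternion algebra
`(α ^ 2, b)`, the character of `γ`, and `d`. -/
structure NF (o : (K ≃ₐ[k] K) →* ℤˣ) (p : (K ≃ₐ[k] K) → GL I K)
    (d : (K ≃ₐ[k] K) → GL (Fin 3) K) (α γ : K) (b : Kˣ) (m : GL I K) : Prop where
  al : α ≠ 0 ∧ ∀ σ : K ≃ₐ[k] K, σ (α ^ 2) = α ^ 2
  ga : γ ≠ 0 ∧ ∀ σ : K ≃ₐ[k] K, σ (γ ^ 2) = γ ^ 2
  be : ∀ σ : K ≃ₐ[k] K, σ b = b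
  sim : Sim m
  eq : ∀ σ, ∃ t : K, E (m * p σ * (st o σ m)⁻¹).1 = t • io (kr (d σ) (it (hq o α b σ)))
    ((((o σ : ℤ) : K) * (σ γ / γ)) • (hq o α b σ).1) ((d σ).1.det / (hq o α b σ).1.det)

end

/-- BRG: from the normal form to the models. -/
def BRG : Prop :=
  ∀ (k K : Type) [Field k] [NumberField k] [Field K] [CharZero K] [Algebra k K] [IsAlgClosure k K]
    (T : Tw k (SE K)) (o : (K ≃ₐ[k] K) →* ℤˣ) (p : (K ≃ₐ[k] K) → GL I K)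
    (π : (K ≃ₐ[k] K) →* Equiv.Perm (Fin 3)) (c : (K ≃ₐ[k] K) → Fin 3 → K)
    (d : (K ≃ₐ[k] K) → GL (Fin 3) K) (α γ : K) (b : Kˣ) (m : GL I K),
    DD o p → Rep T o p → (∃ s, o s ≠ 1) → Mon o p π c d → NF o p d α γ b m →
    (∃ X, Ext X ∧ ∀ σ, FixL o p σ X) ∨ PSimple T.fix ∨
      ¬Dfn o p ∧ (π = 1 ∨ ∃ X, Ext X ∧ ∀ σ, o σ = 1 → FixL o p σ X)

end Vale.Agent.P011LE
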