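import Vale.Agent.P011LE.Lie
import Vale.Agent.P011LE.NF

/-!
The blocks of the outer case.
-/

open Matrix
open scoped ComplexOrder

namespace Vale.Agent.P011LE

open P011L P011LD

section

variable {k K : Type} [Field k] [Field K] [Algebra k K]

/-- The twisted action on the Lie algebra. -/
noncomputable def lo (o : (K ≃ₐ[k] K) →* ℤˣ) (σ : K ≃ₐ[k] K) (X : R K) : R K :=
  if o σ = 1 then cj (σ : K →+* K) X else -tp (cj (σ : K →+* K) X)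

/-- The action defined by the descent data. -/
noncomputable def ac (o : (K ≃ₐ[k] K) →* ℤˣ) (p : (K ≃ₐ[k] K) → GL I K) (σ : K ≃ₐ[k] K)
    (X : R K) : R K := Ad (EU (p σ)) (lo o σ X)

/-- The change of coordinates. -/
def tw {n : Type} [Fintype n] [DecidableEq n] (o : (K ≃ₐ[k] K) →* ℤˣ) (m : GL n K)
    (p : (K ≃ₐ[k] K) → GL n K) (σ : K ≃ₐ[k] K) : GL n K := m * p σ * (st o σ m)⁻¹

/-- A multiple of the image of the matrix is positive definite. -/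
def Df {n : Type} [Fintype n] (w : K →+* ℂ) (M : Matrix n n K) : Prop :=
  ∃ z : ℂ, (z • M.map w).PosDef

/-- The adjoint for the hermitian form. -/
noncomputable def dag (H : GL I K) (κ : K ≃ₐ[k] K) (X : R K) : R K :=
  Ad (EU H) (tp (cj (κ : K →+* K) X))

/-- The hermitian form. -/
noncomputable def ph (H : GL I K) (κ : K ≃ₐ[k] K) (x : J K) : K :=
  bf (sg (κ : K →+* K) x) ((EU H)⁻¹.1 x)

/-- The polynomial functions. -/
def Po (K V : Type) [Field K] [AddCommGroup V] [Module K V] : Subalgebra K (V → K) :=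
  Algebra.adjoin K (Set.range fun (l : V →ₗ[K] K) x => l x)

/-- The polynomials in `x` and in the conjugate of `y`. -/
def BP (s : K ≃ₐ[k] K) (V : Type) [AddCommGroup V] [Module K V] : Subalgebra K (V × V → K) :=
  Algebra.adjoin K ((Set.range fun (l : V →ₗ[K] K) x => l x.1) ∪
    Set.range fun (l : V →ₗ[K] K) x => s (l x.2))

variable [CharZero K]

/-- The root element. -/
def e0 : R K := io 1 !![0, 1; 0, 0] 0

/-- The opposite root element. -/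
def f0 : R K := io 1 !![0, 0; 1, 0] 0

/-- The coroot. -/
def h0 : R K := io 1 !![1, 0; 0, -1] 0

/-- Elements of degree `i`. -/
def Dg (i : ℤ) (X : R K) : Prop := h0 * X - X * h0 = (i : K) • X

/-- The descent data normalize the standard pair. -/
structure SP0 (o : (K ≃ₐ[k] K) →* ℤˣ) (p : (K ≃ₐ[k] K) → GL I K) (α : K) (b : Kˣ)
    (g : (K ≃ₐ[k] K) → GL S K) (l : (K ≃ₐ[k] K) → K) : Prop where
  al : α ≠ 0 ∧ ∀ σ : K ≃ₐ[k] K, σ (α ^ 2) = α ^ 2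
  be : ∀ σ : K ≃ₐ[k] K, σ b = b
  eq : ∀ σ, E (p σ).1 = io (g σ) (hq o α b σ).1 (l σ)
  det : ∀ σ, l σ ^ 2 = (g σ).1.det * (hq o α b σ).1.det

/-- The conditions at the real places. -/
def Re (o : (K ≃ₐ[k] K) →* ℤˣ) (p : (K ≃ₐ[k] K) → GL I K) (α : K) (b : Kˣ)
    (g : (K ≃ₐ[k] K) → GL S K) : Prop :=
  ∀ w κ, Cj w κ → o κ ≠ 1 → κ α ≠ α ∧ (w b).re < 0 ∧ (Df w (g κ).1 → Dfn o p)

end

/-- APX: weak approximation at the real places. -/
def APX : Prop :=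
  ∀ (k K : Type) [Field k] [NumberField k] [Field K] [Algebra k K] [IsAlgClosure k K] (V : Type)
    [AddCommGroup V] [Module K V] [FiniteDimensional K V] (Γ : Subgroup (K ≃ₐ[k] K))
    (a : (K ≃ₐ[k] K) → V → V), Op ⊤ (· ∈ Γ) → Sl Γ a →
    ∀ (ι μ : Type) [Finite ι] [Finite μ] (w : ι → K →+* ℂ) (κ : ι → K ≃ₐ[k] K),
    (∀ i, Cj (w i) (κ i)) →
    (∀ i j, (∀ x : k, w i (algebraMap k K x) = w j (algebraMap k K x)) → i = j) →
    ∀ (y : ι → V) (P : ι → μ → V × V → K), (∀ i, κ i ∈ Γ → a (κ i) (y i) = y i) →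
    (∀ i m, P i m ∈ BP (κ i) V) → (∀ i m, 0 < (w i (P i m (y i, y i))).re) →
    ∃ x ∈ Fx Γ a, ∀ i m, 0 < (w i (P i m (x, x))).re

/-- DEN2: density of the pairs of conjugate points. -/
def DEN2 : Prop :=
  ∀ (k K : Type) [Field k] [NumberField k] [Field K] [Algebra k K] [IsAlgClosure k K] (V : Type)
    [AddCommGroup V] [Module K V] [FiniteDimensional K V] (Γ : Subgroup (K ≃ₐ[k] K))
    (a : (K ≃ₐ[k] K) → V → V), Sl Γ a → ∀ (s : K ≃ₐ[k] K) (α : K), (∀ σ ∈ Γ, σ α = α) →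
    s α ≠ α → ∀ P ∈ BP s V, (∃ x y, P (x, y) ≠ 0) → ∃ x ∈ Fx Γ a, P (x, x) ≠ 0

/-- REPS: representatives of the real places which become complex. -/
def REPS : Prop :=
  ∀ (k K : Type) [Field k] [NumberField k] [Field K] [Algebra k K] [IsAlgClosure k K]
    (o : (K ≃ₐ[k] K) →* ℤˣ), ∃ (ι : Type) (_ : Finite ι) (w : ι → K →+* ℂ) (κ : ι → K ≃ₐ[k] K),
    (∀ i, Cj (w i) (κ i) ∧ o (κ i) ≠ 1) ∧
    (∀ i j, (∀ x : k, w i (algebraMap k K x) = w j (algebraMap k K x)) → i = j) ∧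
    ∀ w' κ', Cj w' κ' → o κ' ≠ 1 → ∃ i σ, (∀ x, w' x = w i (σ x)) ∧ κ i * σ = σ * κ'

/-- DINV: definiteness depends only on the place. -/
def DINV : Prop :=
  ∀ (k K : Type) [Field k] [Field K] [Algebra k K] (n : Type) [Fintype n] [DecidableEq n]
    (o : (K ≃ₐ[k] K) →* ℤˣ) (M : (K ≃ₐ[k] K) → GL n K), PD o M →
    ∀ (w w' : K →+* ℂ) (κ κ' σ : K ≃ₐ[k] K), Cj w κ → o κ ≠ 1 → (∀ x, w' x = w (σ x)) →
    κ * σ = σ * κ' → Df w' (M κ').1 → Df w (M κ).1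

/-- LOC: extremal elements at a real place. -/
def LOC : Prop :=
  ∀ (k K : Type) [Field k] [Field K] [Algebra k K] [IsAlgClosed K] [CharZero K] (w : K →+* ℂ)
    (κ : K ≃ₐ[k] K) (H : GL I K) (g : GL S K) (b l z : K), Cj w κ → κ b = b → b ≠ 0 →
    (H * it (GeneralLinearGroup.map (κ : K →+* K) H)).1 = z • 1 →
    E H.1 = io g !![b, 0; 0, -1] l → l ^ 2 = g.1.det * -b →
    (∃ X, Xt X ∧ 0 < (w (tr (X * dag H κ X))).re ∧
      (Df w H.1 ∨ ∃ x y, (w (ph H κ (X x) * κ (ph H κ (X y)))).re < 0)) ∧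
    (¬Df w g.1 → ∃ X, Xt X ∧ (w (tr (X * dag H κ X))).re < 0) ∧
    ∀ x y, (w (ph H κ (e0 x) * κ (ph H κ (e0 y)))).re < 0 → ¬Df w g.1

/-- SPD: the matrices of a standard pair are projective descent data. -/
def SPD : Prop :=
  ∀ (k K : Type) [Field k] [Field K] [Algebra k K] [CharZero K] (o : (K ≃ₐ[k] K) →* ℤˣ)
    (p : (K ≃ₐ[k] K) → GL I K) (α : K) (b : Kˣ) (g : (K ≃ₐ[k] K) → GL S K)
    (l : (K ≃ₐ[k] K) → K), PD o p → SP0 o p α b g l → PD o g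

/-- NFB: the normal form. -/
def NFB : Prop :=
  ∀ (k K : Type) [Field k] [NumberField k] [Field K] [CharZero K] [Algebra k K] [IsAlgClosure k K]
    (o : (K ≃ₐ[k] K) →* ℤˣ) (p : (K ≃ₐ[k] K) → GL I K) (π : (K ≃ₐ[k] K) →* Equiv.Perm (Fin 3))
    (c : (K ≃ₐ[k] K) → Fin 3 → K) (d : (K ≃ₐ[k] K) → GL (Fin 3) K) (α : K) (b : Kˣ)
    (g : (K ≃ₐ[k] K) → GL S K) (l : (K ≃ₐ[k] K) → K), DD o p → (∃ s, o s ≠ 1) →
    Mon o p π c d → SP0 o p α b g l → Re o p α b g →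
    ∃ c' d' γ m, Mon o p π c' d' ∧ NF o p d' α γ b m ∧
      ∀ w κ, Cj w κ → o κ ≠ 1 → Df w (d' κ).1 → Dfn o p

/-- TOR0: the torus of a rational standard pair. -/
def TOR0 : Prop :=
  ∀ (k K : Type) [Field k] [Field K] [CharZero K] [Algebra k K] (T : Tw k (SE K))
    (o : (K ≃ₐ[k] K) →* ℤˣ) (p : (K ≃ₐ[k] K) → GL I K) (m : GL I K)
    (g : (K ≃ₐ[k] K) → GL S K) (l : (K ≃ₐ[k] K) → K), Rep T o p → Sim m →
    SP0 o (tw o m p) 1 1 g l → ¬T.Ani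

/-- TOR: the torus of an isotropic hermitian form. -/
def TOR : Prop :=
  ∀ (k K : Type) [Field k] [NumberField k] [Field K] [CharZero K] [Algebra k K] [IsAlgClosure k K]
    (T : Tw k (SE K)) (o : (K ≃ₐ[k] K) →* ℤˣ) (p : (K ≃ₐ[k] K) → GL I K)
    (c : (K ≃ₐ[k] K) → Fin 3 → K) (d : (K ≃ₐ[k] K) → GL (Fin 3) K) (α γ : K) (b : Kˣ)
    (m : GL I K), Rep T o p → (∃ s, o s ≠ 1) → Mon o p 1 c d → NF o p d α γ b m →
    (∀ w κ, Cj w κ → o κ ≠ 1 → ¬Df w (d κ).1) → ¬T.Ani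

/-- YY: a line of extremal points. -/
def YY : Prop :=
  ∀ (k K : Type) [Field k] [NumberField k] [Field K] [CharZero K] [Algebra k K] [IsAlgClosure k K]
    (o : (K ≃ₐ[k] K) →* ℤˣ) (p : (K ≃ₐ[k] K) → GL I K) (d : (K ≃ₐ[k] K) → GL (Fin 3) K) (α : K)
    (b : Kˣ) (g : (K ≃ₐ[k] K) → GL S K) (l : (K ≃ₐ[k] K) → K), Cmp o p d →
    (∀ σ, σ α = α ↔ o σ = 1) → SP0 o p α b g l → ∀ s, o s ≠ 1 →
    ∃ Y, Xt Y ∧ Dg 1 Y ∧ (∀ σ, o σ = 1 → ac o p σ Y = Y) ∧ tr (Y * ac o p s Y) ≠ 0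

/-- CEN: the normalizer of the standard pair. -/
def CEN : Prop :=
  ∀ (K : Type) [Field K] [IsAlgClosed K] [CharZero K] (u : (R K)ˣ) (h : GL (Fin 2) K), u ∈ SX K →
    u.1 * e0 = io 1 (h.1 * !![0, 1; 0, 0] * h⁻¹.1) 0 * u.1 →
    u.1 * f0 = io 1 (h.1 * !![0, 0; 1, 0] * h⁻¹.1) 0 * u.1 →
    ∃ g l, u.1 = io g h.1 l ∧ l ^ 2 = g.1.det * h.1.det

/-- P3: the centralizer of the elements of nonzero degree. -/
def P3 : Prop :=
  ∀ (K : Type) [Field K] [IsAlgClosed K] [CharZero K], ∀ Y ∈ gl K, Y * e0 = e0 * Y →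
    Y * f0 = f0 * Y → (∀ n ∈ gl K, Dg (-1) n → Y * n = n * Y) → Y = 0

end Vale.Agent.P011LE
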