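import Vale.Agent.P011LE.Co
import Mathlib.LinearAlgebra.Matrix.Transvection

/-!
Endomorphisms of the twenty seven dimensional space: transposes, conjugates, traces, and the action
of `GL₆ × GL₂`.
-/

open Matrix

namespace Vale.Agent.P011LE

open P011L P011LD

/-- The endomorphisms. -/
abbrev R (K : Type) [Field K] : Type := Module.End K (J K)

variable {K : Type} [Field K]

/-- Matrices as endomorphisms. -/
noncomputable def E : Matrix I I K ≃ₐ[K] R K :=
  Matrix.toLinAlgEquiv'.trans (co.symm.conjAlgEquiv K)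

theorem co_E (X : Matrix I I K) (y : J K) : co (E X y) = X *ᵥ co y := by
  simp [E, LinearEquiv.conjAlgEquiv_apply, Matrix.toLinAlgEquiv'_apply]

theorem co_R (X : R K) (y : J K) : co (X y) = E.symm X *ᵥ co y := by
  rw [← co_E, AlgEquiv.apply_symm_apply]

theorem bf_comm (y z : J K) : bf y z = bf z y := dotProduct_comm _ _

theorem bf_ext {y y' : J K} (h : ∀ z, bf y z = bf y' z) : y = y' := by
  apply co.injective
  funext i
  simpa [bf] using h (co.symm (Pi.single i 1))

/-- The transpose. -/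
noncomputable def tp (X : R K) : R K := E (E.symm X)ᵀ

theorem tp_E (X : Matrix I I K) : tp (E X) = E Xᵀ := by rw [tp, AlgEquiv.symm_apply_apply]

theorem bf_tp (X : R K) (y z : J K) : bf (tp X y) z = bf y (X z) := by
  rw [bf, bf, tp, co_E, co_R, mulVec_transpose, dotProduct_mulVec]

theorem tp_eq {X Y : R K} (h : ∀ y z, bf (Y y) z = bf y (X z)) : tp X = Y :=
  LinearMap.ext fun y => bf_ext fun z => by rw [bf_tp, h]

@[simp] theorem tp_tp (X : R K) : tp (tp X) = X := by simp [tp]
@[simp] theorem tp_mul (X Y : R K) : tp (X * Y) = tp Y * tp X := by simp [tp]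
@[simp] theorem tp_add (X Y : R K) : tp (X + Y) = tp X + tp Y := by simp [tp]
@[simp] theorem tp_smul (c : K) (X : R K) : tp (c • X) = c • tp X := by simp [tp]
@[simp] theorem tp_neg (X : R K) : tp (-X) = -tp X := by
  rw [← neg_one_smul K X, tp_smul, neg_one_smul]
@[simp] theorem tp_sub (X Y : R K) : tp (X - Y) = tp X - tp Y := by
  rw [sub_eq_add_neg, tp_add, tp_neg, ← sub_eq_add_neg]
@[simp] theorem tp_one : tp (1 : R K) = 1 := by simp [tp]
@[simp] theorem tp_zero : tp (0 : R K) = 0 := by simp [tp]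

theorem tp_inj {X Y : R K} (h : tp X = tp Y) : X = Y := by rw [← tp_tp X, h, tp_tp]

/-- The trace. -/
noncomputable def tr : R K →ₗ[K] K := (traceLinearMap I K K).comp E.symm.toLinearMap

theorem tr_def (X : R K) : tr X = (E.symm X).trace := rfl

theorem tr_comm (X Y : R K) : tr (X * Y) = tr (Y * X) := by
  rw [tr_def, tr_def, map_mul, map_mul, trace_mul_comm]

theorem tr_tp (X : R K) : tr (tp X) = tr X := by
  rw [tr_def, tr_def, tp, AlgEquiv.symm_apply_apply, trace_transpose]

section

variable (f : K →+* K)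

/-- The action of a ring homomorphism on the coordinates. -/
def sg (y : J K) : J K :=
  (⟨y.1.1.map f, by rw [← transpose_map, y.1.2.1]; exact Matrix.map_neg _ (map_neg f) _,
    fun i => by rw [map_apply, y.1.2.2, map_zero]⟩, y.2.map f)

theorem co_sg (y : J K) : co (sg f y) = f ∘ co y := by
  funext ⟨l, i, j⟩
  rw [Function.comp_apply, co_apply, co_apply]
  fin_cases l <;> fin_cases i <;> fin_cases j <;> simp [coF, sg]

/-- The action of a ring homomorphism on the endomorphisms. -/
noncomputable def cj : R K →+* R K :=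
  (E (K := K)).toRingEquiv.toRingHom.comp
    (f.mapMatrix.comp (E (K := K)).symm.toRingEquiv.toRingHom)

theorem cj_def (X : R K) : cj f X = E ((E.symm X).map f) := rfl

theorem cj_E (X : Matrix I I K) : cj f (E X) = E (X.map f) := by
  rw [cj_def, AlgEquiv.symm_apply_apply]

theorem cj_sg (X : R K) (y : J K) : cj f X (sg f y) = sg f (X y) := by
  apply co.injective
  rw [cj_def, co_E, co_sg, co_sg, co_R]
  funext i
  exact (f.map_mulVec _ _ i).symm

theorem cj_eq {X Y : R K} (h : ∀ y, Y (sg f y) = sg f (X y)) : cj f X = Y := by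
  refine ((Pi.basisFun K I).map co.symm).ext fun i => ?_
  have e : sg f (co.symm (Pi.single i 1)) = co.symm (Pi.single i 1) := by
    apply co.injective
    rw [co_sg, LinearEquiv.apply_symm_apply]
    funext j
    by_cases h : j = i <;> simp [Pi.single_apply, h]
  simp only [Module.Basis.map_apply, Pi.basisFun_apply]
  rw [← e, cj_sg, h]

theorem cj_smul (c : K) (X : R K) : cj f (c • X) = f c • cj f X := by
  have e : (c • E.symm X).map f = f c • (E.symm X).map f := Matrix.ext fun _ _ => map_mul f _ _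
  rw [cj_def, cj_def, map_smul, e, map_smul]

theorem cj_tp (X : R K) : cj f (tp X) = tp (cj f X) := by
  rw [tp, cj_E, cj_def, tp_E, transpose_map]

theorem tr_cj (X : R K) : tr (cj f X) = f (tr X) := by
  rw [tr_def, tr_def, cj_def, AlgEquiv.symm_apply_apply]
  exact (AddMonoidHom.map_trace (f : K →+ K) _).symm

theorem cj_cj (g : K →+* K) (X : R K) : cj f (cj g X) = cj (f.comp g) X := by
  rw [cj_def g, cj_E, cj_def, Matrix.map_map]
  rfl

theorem cj_id (X : R K) : cj (RingHom.id K) X = X := by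
  rw [cj_def]
  exact (congrArg E (Matrix.map_id _)).trans (E.apply_symm_apply X)

theorem N_sg (y : J K) : N (sg f y) = f (N y) := by
  simp [N, pf, sg, dotProduct, mulVec, sum_S]

end

theorem pf_smul (c : K) (A : Matrix S S K) : pf (c • A) = c ^ 3 * pf A := by
  simp only [pf, Matrix.smul_apply, smul_eq_mul]; ring

theorem tv_apply (A : Matrix S S K) (i j : S) (c : K) (a b : S) :
    ((transvection i j c)ᵀ * A * transvection i j c) a b =
      A a b + (if a = j then c * A i b else 0) + (if b = j then c * A a i else 0) +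
        if a = j ∧ b = j then c * c * A i i else 0 := by
  have h1 (M : Matrix S S K) (a b : S) : ((transvection i j c)ᵀ * M) a b =
      M a b + if a = j then c * M i b else 0 := by
    rw [transvection, transpose_add, transpose_one, transpose_single, add_mul, one_mul,
      Matrix.add_apply]
    split_ifs with h
    · rw [h, single_mul_apply_same]
    · rw [single_mul_apply_of_ne _ _ _ _ _ h]
  have h2 (M : Matrix S S K) (a b : S) : (M * transvection i j c) a b =
      M a b + if b = j then c * M a i else 0 := by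
    rw [transvection, mul_add, mul_one, Matrix.add_apply]
    split_ifs with h
    · rw [h, mul_single_apply_same, mul_comm]
    · rw [mul_single_apply_of_ne _ _ _ _ _ h]
  rw [h2, h1, h1]
  by_cases ha : a = j <;> by_cases hb : b = j <;> simp [ha, hb]
  ring

theorem pf_tv (A : Alt K) (i j : S) (hij : i ≠ j) (c : K) :
    pf ((transvection i j c)ᵀ * A.1 * transvection i j c) = pf A.1 := by
  obtain ⟨a1, a2, a3, a4, a5, a6, a7, a8, a9, a10, a11, a12, a13, a14, a15⟩ := Alt.low A
  obtain ⟨i, i'⟩ := i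
  obtain ⟨j, j'⟩ := j
  simp only [pf, tv_apply]
  fin_cases j <;> fin_cases j' <;> simp only [Fin.zero_eta, Fin.mk_one, Fin.reduceFinMk,
    Prod.mk.injEq, Fin.reduceEq, and_self, and_true, and_false, false_and, true_and, if_true,
    if_false, add_zero] <;> fin_cases i <;> fin_cases i' <;>
    first
    | exact absurd rfl hij
    | (simp only [Fin.zero_eta, Fin.mk_one, Fin.reduceFinMk, Alt.dg, a1, a2, a3, a4, a5, a6, a7, a8,
        a9, a10, a11, a12, a13, a14, a15]; ring)

variable [CharZero K]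

theorem mem_Alt {A : Matrix S S K} (h : Aᵀ = -A) : A ∈ Alt K :=
  ⟨h, fun i => by
    have := congrFun (congrFun h i) i
    rw [transpose_apply, Matrix.neg_apply] at this
    linear_combination this / 2⟩

theorem cg_mem (m : Matrix S S K) (A : Alt K) : mᵀ * A.1 * m ∈ Alt K :=
  mem_Alt (by rw [transpose_mul, transpose_mul, transpose_transpose, A.2.1, neg_mul, mul_neg,
    mul_assoc])

theorem pf_cg (m : Matrix S S K) (A : Alt K) : pf (mᵀ * A.1 * m) = m.det * pf A.1 := by
  refine diagonal_transvection_induction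
    (fun m => ∀ A : Alt K, pf (mᵀ * A.1 * m) = m.det * pf A.1) m (fun D _ A => ?_)
    (fun t A => ?_) (fun a b ha hb A => ?_) A
  · simp only [pf, diagonal_transpose, mul_diagonal, diagonal_mul, det_diagonal,
      Fintype.prod_prod_type, Fin.prod_univ_three, Fin.prod_univ_two]
    ring
  · rw [TransvectionStruct.det, one_mul]
    exact pf_tv A _ _ t.hij _
  · have := hb ⟨_, cg_mem a A⟩
    rw [ha] at this
    rw [transpose_mul, det_mul, mul_comm a.det, mul_assoc b.det, ← this]
    simp only [mul_assoc]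

/-- The action of `GL₆ × M₂ × K`. -/
def io (g : GL S K) (h : Matrix (Fin 2) (Fin 2) K) (l : K) : R K where
  toFun y := jm (l • (g⁻¹.1ᵀ * y.1.1 * g⁻¹.1)) ((Alt K).smul_mem l (cg_mem g⁻¹.1 y.1))
    (h * y.2 * g.1ᵀ)
  map_add' y z := J_ext (by simp [mul_add, add_mul]) (by simp [Matrix.mul_add, Matrix.add_mul])
  map_smul' c y := J_ext (by simp [smul_comm l c]) (by simp)

theorem io_1 (g : GL S K) (h : Matrix (Fin 2) (Fin 2) K) (l : K) (y : J K) :
    (io g h l y).1.1 = l • (g⁻¹.1ᵀ * y.1.1 * g⁻¹.1) := rfl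

theorem io_2 (g : GL S K) (h : Matrix (Fin 2) (Fin 2) K) (l : K) (y : J K) :
    (io g h l y).2 = h * y.2 * g.1ᵀ := rfl

theorem io_mul (g g' : GL S K) (h h' : Matrix (Fin 2) (Fin 2) K) (l l' : K) :
    io g h l * io g' h' l' = io (g * g') (h * h') (l * l') :=
  LinearMap.ext fun y => J_ext
    (by simp [io_1, mul_smul, mul_assoc]) (by simp [io_2, Matrix.mul_assoc])

theorem io_one : io (1 : GL S K) 1 1 = 1 :=
  LinearMap.ext fun y => J_ext (by simp [io_1]) (by simp [io_2])

theorem io_add (g : GL S K) (h h' : Matrix (Fin 2) (Fin 2) K) (l l' : K) :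
    io g h l + io g h' l' = io g (h + h') (l + l') :=
  LinearMap.ext fun y => J_ext (by simp [io_1, add_smul]) (by simp [io_2, Matrix.add_mul])

theorem io_smul (c : K) (g : GL S K) (h : Matrix (Fin 2) (Fin 2) K) (l : K) :
    c • io g h l = io g (c • h) (c * l) :=
  LinearMap.ext fun y => J_ext (by simp [io_1, mul_smul]) (by simp [io_2])

theorem io_zero (g : GL S K) : io g 0 0 = 0 :=
  LinearMap.ext fun y => J_ext (by simp [io_1]) (by simp [io_2])

theorem io_neg (g : GL S K) (h : Matrix (Fin 2) (Fin 2) K) (l : K) : -io g h l = io g (-h) (-l) :=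
  LinearMap.ext fun y => J_ext (by simp [io_1]) (by simp [io_2])

theorem io_sub (g : GL S K) (h h' : Matrix (Fin 2) (Fin 2) K) (l l' : K) :
    io g h l - io g h' l' = io g (h - h') (l - l') := by
  rw [sub_eq_add_neg (io g h l), io_neg, io_add, ← sub_eq_add_neg, ← sub_eq_add_neg]

theorem mx_eq (A : Alt K) (w : Matrix (Fin 2) S K) : w 0 ⬝ᵥ A.1 *ᵥ w 1 = (w * A.1 * wᵀ) 0 1 := by
  rw [Matrix.mul_assoc]
  rfl

theorem alt_two (A : Alt K) (w : Matrix (Fin 2) S K) (h : Matrix (Fin 2) (Fin 2) K) :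
    (h * (w * A.1 * wᵀ) * hᵀ) 0 1 = h.det * (w * A.1 * wᵀ) 0 1 := by
  have e : (w * A.1 * wᵀ)ᵀ = -(w * A.1 * wᵀ) := by
    rw [transpose_mul, transpose_mul, transpose_transpose, A.2.1, Matrix.neg_mul, Matrix.mul_neg,
      Matrix.mul_assoc]
  generalize w * A.1 * wᵀ = B at e
  have e0 := congrFun (congrFun e 0) 0
  have e1 := congrFun (congrFun e 1) 1
  have e2 := congrFun (congrFun e 0) 1
  simp only [transpose_apply, Matrix.neg_apply] at e0 e1 e2
  simp only [mul_apply, Fin.sum_univ_two, transpose_apply, det_fin_two]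
  linear_combination h 0 0 * h 1 0 / 2 * e0 + h 0 1 * h 1 1 / 2 * e1 + h 0 1 * h 1 0 * e2

theorem N_io' (g : GL S K) (h : Matrix (Fin 2) (Fin 2) K) (l : K) (y : J K) :
    N (io g h l y) = l ^ 3 * g⁻¹.1.det * pf y.1.1 + l * h.det * (y.2 0 ⬝ᵥ y.1.1 *ᵥ y.2 1) := by
  have e1 : g.1ᵀ * g⁻¹.1ᵀ = 1 := by rw [← transpose_mul, Units.inv_mul, transpose_one]
  have e2 : h * y.2 * g.1ᵀ * (l • (g⁻¹.1ᵀ * y.1.1 * g⁻¹.1) : Matrix S S K) * (h * y.2 * g.1ᵀ)ᵀ =
      l • (h * (y.2 * y.1.1 * y.2ᵀ) * hᵀ) := by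
    simp only [Matrix.mul_smul, Matrix.smul_mul, transpose_mul, transpose_transpose,
      Matrix.mul_assoc]
    rw [← Matrix.mul_assoc g⁻¹.1, Units.inv_mul, Matrix.one_mul, ← Matrix.mul_assoc g.1ᵀ, e1,
      Matrix.one_mul]
  rw [N, mx_eq, mx_eq, io_1, io_2, pf_smul, pf_cg, mul_assoc l, ← alt_two, e2, mul_assoc (l ^ 3)]
  rfl

theorem N_io {g : GL S K} {h : Matrix (Fin 2) (Fin 2) K} {l : K} (e : l ^ 2 = g.1.det * h.det)
    (y : J K) : N (io g h l y) = l * h.det * N y := by
  have e1 : g⁻¹.1.det * g.1.det = 1 := by rw [← det_mul, Units.inv_mul, det_one]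
  rw [N_io', N]
  linear_combination (l * g⁻¹.1.det * pf y.1.1) * e + l * h.det * pf y.1.1 * e1

theorem it_val {n : Type} [Fintype n] [DecidableEq n] (g : GL n K) : (it g).1 = g⁻¹.1ᵀ := rfl

theorem it_inv_val {n : Type} [Fintype n] [DecidableEq n] (g : GL n K) : (it g)⁻¹.1 = g.1ᵀ := rfl

theorem tp_io (g : GL S K) (h : Matrix (Fin 2) (Fin 2) K) (l : K) :
    tp (io g h l) = io (it g)⁻¹ hᵀ l := by
  refine tp_eq fun y z => mul_left_cancel₀ (two_ne_zero (α := K)) ?_
  rw [bf_eq, bf_eq, io_1, io_2, io_1, io_2, inv_inv, it_val, it_inv_val]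
  congr 1
  · simp only [transpose_smul, transpose_mul, transpose_transpose, Matrix.mul_smul,
      Matrix.smul_mul, trace_smul, Matrix.mul_assoc]
    rw [trace_mul_comm g⁻¹.1]
    simp only [Matrix.mul_assoc]
  · simp only [transpose_mul, transpose_transpose, Matrix.mul_assoc]
    rw [trace_mul_comm hᵀ]
    simp only [Matrix.mul_assoc]

theorem cj_io (f : K →+* K) (g : GL S K) (h : Matrix (Fin 2) (Fin 2) K) (l : K) :
    cj f (io g h l) = (io (GeneralLinearGroup.map f g) (h.map f) (f l) : R K) := by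
  refine cj_eq f fun y => J_ext ?_ ?_
  · change f l • ((g⁻¹.1.map f)ᵀ * y.1.1.map f * g⁻¹.1.map f) =
      (l • (g⁻¹.1ᵀ * y.1.1 * g⁻¹.1) : Matrix S S K).map f
    rw [← transpose_map, ← Matrix.map_mul, ← Matrix.map_mul]
    exact Matrix.ext fun _ _ => (map_mul f _ _).symm
  · change h.map f * y.2.map f * (g.1.map f)ᵀ = (h * y.2 * g.1ᵀ).map f
    rw [Matrix.map_mul, Matrix.map_mul, transpose_map]

end Vale.Agent.P011LE
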