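import Vale.Agent.P011LE.Io
import Vale.Agent.P011LG.Psi

/-!
The Lie algebra of the cubic form, exponentials, and the grading defined by a root.
-/

open Matrix

namespace Vale.Agent.P011LE

open P011L P011LD

variable {K : Type} [Field K]

/-- `X` kills the trilinear form. -/
def Lie (X : R K) : Prop := ∀ x y z, T (X x) y z + T x (X y) z + T x y (X z) = 0

/-- `g` multiplies the cubic form by `ν`. -/
def Sm (ν : K) (g : R K) : Prop := ∀ y, N (g y) = ν * N y

/-- The Lie algebra. -/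
def gl (K : Type) [Field K] : Submodule K (R K) where
  carrier := {X | Lie X ∧ Lie (tp X)}
  add_mem' := fun {X Y} a b => by
    have e {X Y : R K} (a : Lie X) (b : Lie Y) : Lie (X + Y) := fun x y z => by
      simp only [LinearMap.add_apply, map_add]
      linear_combination a x y z + b x y z
    exact ⟨e a.1 b.1, tp_add X Y ▸ e a.2 b.2⟩
  zero_mem' := by
    have e : Lie (0 : R K) := fun x y z => by simp
    exact ⟨e, by rw [tp_zero]; exact e⟩
  smul_mem' := fun c X a => by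
    have e {X : R K} (a : Lie X) : Lie (c • X) := fun x y z => by
      simp only [LinearMap.smul_apply, map_smul, smul_eq_mul]
      linear_combination c * a x y z
    exact ⟨e a.1, tp_smul c X ▸ e a.2⟩

theorem Lie.br {X Y : R K} (a : Lie X) (b : Lie Y) : Lie (X * Y - Y * X) := fun x y z => by
  simp only [LinearMap.sub_apply, Module.End.mul_apply, map_sub]
  linear_combination a (Y x) y z + a x (Y y) z + a x y (Y z) - b (X x) y z - b x (X y) z -
    b x y (X z)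

theorem gl_br {X Y : R K} (a : X ∈ gl K) (b : Y ∈ gl K) : X * Y - Y * X ∈ gl K :=
  ⟨a.1.br b.1, by rw [tp_sub, tp_mul, tp_mul]; exact b.2.br a.2⟩

theorem gl_tp {X : R K} (a : X ∈ gl K) : tp X ∈ gl K := ⟨a.2, (tp_tp X).symm ▸ a.1⟩

theorem Sm.mul {ν μ : K} {g h : R K} (a : Sm ν g) (b : Sm μ h) : Sm (ν * μ) (g * h) := fun y => by
  rw [Module.End.mul_apply, a, b, mul_assoc]

theorem N_smul (c : K) (y : J K) : N (c • y) = c ^ 3 * N y := by
  have e (i : Fin 2) : (c • y.2) i = c • y.2 i := rfl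
  simp only [N, smul_1, smul_2, pf_smul, e, smul_mulVec, mulVec_smul, dotProduct_smul,
    smul_dotProduct, smul_eq_mul]
  ring

theorem Sm.smul {ν : K} {g : R K} (a : Sm ν g) (c : K) : Sm (c ^ 3 * ν) (c • g) := fun y => by
  rw [LinearMap.smul_apply, N_smul, a, mul_assoc]

/-- The similarities. -/
def SX (K : Type) [Field K] : Subgroup (R K)ˣ where
  carrier := {u | ∃ ν : K, ν ≠ 0 ∧ Sm ν u.1}
  mul_mem' := fun ⟨ν, a, b⟩ ⟨μ, c, d⟩ => ⟨ν * μ, mul_ne_zero a c, b.mul d⟩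
  one_mem' := ⟨1, one_ne_zero, fun y => (one_mul _).symm⟩
  inv_mem' := fun {u} ⟨ν, a, b⟩ => ⟨ν⁻¹, inv_ne_zero a, fun y => by
    have := b (u⁻¹.1 y)
    rw [← Module.End.mul_apply, Units.mul_inv, Module.End.one_apply] at this
    rw [this, inv_mul_cancel_left₀ a]⟩

/-- The inverse transpose. -/
noncomputable def itR : (R K)ˣ →* (R K)ˣ where
  toFun u := ⟨tp u⁻¹.1, tp u.1, by rw [← tp_mul, Units.mul_inv, tp_one],
    by rw [← tp_mul, Units.inv_mul, tp_one]⟩
  map_one' := Units.ext (by simp)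
  map_mul' x y := Units.ext (by simp)

/-- Invertible matrices as invertible endomorphisms. -/
noncomputable def EU : GL I K ≃* (R K)ˣ := Units.mapEquiv (E (K := K)).toRingEquiv.toMulEquiv

theorem EU_val (g : GL I K) : (EU g).1 = E g.1 := rfl

theorem EU_it (g : GL I K) : EU (it g) = itR (EU g) :=
  Units.ext (tp_E _).symm

theorem sm_E {ν : K} {g : Matrix I I K} : Sm ν (E g) ↔ ∀ x, cub (g *ᵥ x) = ν * cub x :=
  ⟨fun h x => by
    obtain ⟨y, rfl⟩ := co.surjective x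
    rw [← co_E, cub_co, cub_co, h], fun h y => by rw [← cub_co, co_E, h, cub_co]⟩

theorem EU_mem {g : GL I K} : EU g ∈ SX K ↔ Sim g :=
  exists_congr fun _ => and_congr_right fun _ => sm_E

theorem itR_mem [IsAlgClosed K] [CharZero K] {u : (R K)ˣ} (h : u ∈ SX K) : itR u ∈ SX K := by
  obtain ⟨g, rfl⟩ := EU.surjective u
  obtain ⟨ν, h0, h⟩ := h
  obtain ⟨r, hr⟩ := IsAlgClosed.exists_pow_nat_eq ν⁻¹ (n := 3) (by norm_num)
  have r0 : r ≠ 0 := fun e => by
    rw [e, zero_pow three_ne_zero] at hr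
    exact inv_ne_zero h0 hr.symm
  have h1 := h.smul r
  rw [hr, inv_mul_cancel₀ h0, EU_val, ← map_smul] at h1
  have : NeZero (2 : K) := ⟨two_ne_zero⟩
  obtain ⟨g', m, e⟩ := P011LG.SE_invT (F := K) (fun t => IsAlgClosed.exists_eq_mul_self t)
    (g := Units.mk0 r r0 • g) (P011LT.mem_SE.2 fun x => (sm_E.1 h1 x).trans (one_mul _))
  have h2 : Sm 1 (E g'.1) := sm_E.2 fun x => (P011LT.mem_SE.1 m x).trans (one_mul _).symm
  have e2 : (itR (EU g)).1 = r • E g'.1 := by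
    rw [← EU_it, EU_val, ← map_smul, e, it_val]
    change _ = E (r • (r⁻¹ • g⁻¹.1)ᵀ)
    rw [transpose_smul, smul_inv_smul₀ r0]
  exact ⟨r ^ 3 * 1, by simpa using r0, e2 ▸ h2.smul r⟩

variable [CharZero K]

theorem pol (x y z : J K) :
    T x y z = N (x + y + z) - N (x + y) - N (x + z) - N (y + z) + N x + N y + N z := by
  have h1 := T_self (x + y + z)
  have h2 := T_self (x + y)
  have h3 := T_self (x + z)
  have h4 := T_self (y + z)
  simp only [map_add, LinearMap.add_apply, T_sw y x, T_sw z x, T_sw z y, T_sw' _ y x, T_sw' _ z x,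
    T_sw' _ z y] at h1 h2 h3 h4
  linear_combination (h1 - h2 - h3 - h4 + T_self x + T_self y + T_self z) / 6

theorem Sm.T {ν : K} {g : R K} (a : Sm ν g) (x y z : J K) : T (g x) (g y) (g z) = ν * T x y z := by
  rw [pol, pol]
  simp only [← map_add, a _]
  ring

theorem sm_of_T {g : R K} (a : ∀ x, T (g x) (g x) (g x) = T x x x) : Sm 1 g := fun y => by
  have := a y
  rw [T_self, T_self] at this
  linear_combination this / 6

theorem lie_of {X : R K} (h : ∀ t : K, Sm 1 (1 + t • X)) : Lie X := fun x y z => by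
  have h1 := (h 1).T x y z
  have h2 := (h (-1)).T x y z
  have h3 := (h 2).T x y z
  simp only [LinearMap.add_apply, Module.End.one_apply, LinearMap.smul_apply, map_add, map_smul,
    smul_eq_mul] at h1 h2 h3
  linear_combination h1 - h2 / 3 - h3 / 6

/-- The adjoint action. -/
def Ad (u : (R K)ˣ) (X : R K) : R K := u.1 * X * u⁻¹.1

section
omit [CharZero K]

theorem Ad_mul (u v : (R K)ˣ) (X : R K) : Ad (u * v) X = Ad u (Ad v X) := by
  simp only [Ad, _root_.mul_inv_rev, Units.val_mul, mul_assoc]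

theorem Ad_one (X : R K) : Ad 1 X = X := by simp [Ad]

theorem Ad_inv (u : (R K)ˣ) (X : R K) : Ad u⁻¹ (Ad u X) = X := by
  rw [← Ad_mul, inv_mul_cancel, Ad_one]

theorem Ad_inv' (u : (R K)ˣ) (X : R K) : Ad u (Ad u⁻¹ X) = X := Ad_inv u⁻¹ X

theorem Ad_mul' (u : (R K)ˣ) (X Y : R K) : Ad u (X * Y) = Ad u X * Ad u Y := by
  simp only [Ad, mul_assoc, Units.inv_mul_cancel_left]

theorem Ad_add (u : (R K)ˣ) (X Y : R K) : Ad u (X + Y) = Ad u X + Ad u Y := by
  simp only [Ad, mul_add, add_mul]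

theorem Ad_sub (u : (R K)ˣ) (X Y : R K) : Ad u (X - Y) = Ad u X - Ad u Y := by
  simp only [Ad, mul_sub, sub_mul]

theorem Ad_neg (u : (R K)ˣ) (X : R K) : Ad u (-X) = -Ad u X := by
  simp only [Ad, mul_neg, neg_mul]

theorem Ad_zero (u : (R K)ˣ) : Ad u 0 = 0 := by simp only [Ad, mul_zero, zero_mul]

theorem Ad_1 (u : (R K)ˣ) : Ad u 1 = 1 := by simp [Ad]

theorem Ad_smul (u : (R K)ˣ) (c : K) (X : R K) : Ad u (c • X) = c • Ad u X := by
  simp only [Ad, mul_smul_comm, smul_mul_assoc]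

theorem Ad_inj (u : (R K)ˣ) {X Y : R K} (h : Ad u X = Ad u Y) : X = Y := by
  rw [← Ad_inv u X, h, Ad_inv]

theorem Ad_eq {u : (R K)ˣ} {X Y : R K} : Ad u X = Y ↔ u.1 * X = Y * u.1 :=
  Units.mul_inv_eq_iff_eq_mul u

theorem tr_Ad (u : (R K)ˣ) (X : R K) : tr (Ad u X) = tr X := by
  rw [Ad, tr_comm, Units.inv_mul_cancel_left]

theorem tr_Ad' (u : (R K)ˣ) (X Y : R K) : tr (Ad u X * Y) = tr (X * Ad u⁻¹ Y) := by
  rw [← tr_Ad u (X * _), Ad_mul', Ad_inv']

theorem tp_Ad (u : (R K)ˣ) (X : R K) : tp (Ad u X) = Ad (itR u) (tp X) := by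
  rw [Ad, tp_mul, tp_mul, ← mul_assoc]
  rfl

end

theorem Lie.Ad {u : (R K)ˣ} (h : u ∈ SX K) {X : R K} (a : Lie X) : Lie (Ad u X) := fun x y z => by
  obtain ⟨ν, -, h⟩ := h
  have e (x : J K) : u.1 (u⁻¹.1 x) = x := by
    rw [← Module.End.mul_apply, Units.mul_inv, Module.End.one_apply]
  have h1 := h.T (X (u⁻¹.1 x)) (u⁻¹.1 y) (u⁻¹.1 z)
  have h2 := h.T (u⁻¹.1 x) (X (u⁻¹.1 y)) (u⁻¹.1 z)
  have h3 := h.T (u⁻¹.1 x) (u⁻¹.1 y) (X (u⁻¹.1 z))
  simp only [e] at h1 h2 h3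
  simp only [P011LE.Ad, Module.End.mul_apply]
  linear_combination h1 + h2 + h3 + ν * a (u⁻¹.1 x) (u⁻¹.1 y) (u⁻¹.1 z)

theorem gl_Ad [IsAlgClosed K] {u : (R K)ˣ} (h : u ∈ SX K) {X : R K} (a : X ∈ gl K) :
    Ad u X ∈ gl K := ⟨a.1.Ad h, tp_Ad u X ▸ a.2.Ad (itR_mem h)⟩

/-- The truncated exponential. -/
def ex (X : R K) : R K := 1 + X + (2⁻¹ : K) • (X * X)

theorem ex_neg {X : R K} (h : X * X * X = 0) : ex X * ex (-X) = 1 := by
  have h2 : X * (X * X) = 0 := by rw [← mul_assoc, h]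
  have h4 : X * X * (X * X) = 0 := by rw [← mul_assoc, h, zero_mul]
  simp only [ex, mul_add, add_mul, mul_one, one_mul, mul_neg, neg_mul, neg_neg, smul_mul_assoc,
    mul_smul_comm, h, h2, h4, smul_zero]
  module

/-- The exponential as a unit. -/
def eu (X : R K) (h : X * X * X = 0) : (R K)ˣ :=
  ⟨ex X, ex (-X), ex_neg h, by simpa using ex_neg (X := -X) (by simp [h])⟩

theorem sm_ex {X : R K} (h : X * X * X = 0) (a : Lie X) : Sm 1 (ex X) := sm_of_T fun x => by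
  have e : X (X (X x)) = 0 := LinearMap.congr_fun h x
  generalize hy : X x = y at e
  generalize hz : X y = z at e
  have e0 : ex X x = x + y + (2⁻¹ : K) • z := by
    simp only [ex, LinearMap.add_apply, Module.End.one_apply, LinearMap.smul_apply,
      Module.End.mul_apply, hy, hz]
  have h1 := a x x x
  have h2 := a x x y
  have h3 := a x x z
  have h4 := a x y y
  have h5 := a x y z
  have h6 := a y y y
  have h7 := a x z z
  have h8 := a y y z
  have h9 := a y z z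
  rw [e0]
  simp only [hy, hz, e, map_add, map_smul, LinearMap.add_apply, LinearMap.smul_apply, smul_eq_mul,
    T_sw y x, T_sw z x, T_sw z y, T_sw' _ y x, T_sw' _ z x, T_sw' _ z y, map_zero,
    LinearMap.zero_apply] at h1 h2 h3 h4 h5 h6 h7 h8 h9 ⊢
  linear_combination h1 + 3 / 2 * h2 + h3 / 2 + h4 + 3 / 4 * h5 + h6 / 4 + 3 / 8 * h8 + h9 / 8

theorem eu_mem {X : R K} (h : X * X * X = 0) (a : Lie X) : eu X h ∈ SX K :=
  ⟨1, one_ne_zero, sm_ex h a⟩

/-- Extremal elements. -/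
structure Xt (X : R K) : Prop where
  ne : X ≠ 0
  sq : X * X = 0
  mem : X ∈ gl K

theorem ex_sq {X : R K} (h : X * X = 0) : ex X = 1 + X := by rw [ex, h, smul_zero, add_zero]

theorem gl_of_sq [IsAlgClosed K] {X : R K} (h : X * X = 0) (a : ∀ t : K, Sm 1 (1 + t • X)) :
    X ∈ gl K := by
  refine ⟨lie_of a, lie_of fun t => ?_⟩
  have q (t : K) : (1 + t • X) * (1 + -t • X) = 1 := by
    simp only [mul_add, add_mul, one_mul, mul_one, smul_mul_smul_comm, h, smul_zero]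
    module
  let u : (R K)ˣ := ⟨1 + -t • X, 1 + t • X, by simpa using q (-t), q t⟩
  obtain ⟨g, e⟩ := EU.surjective u
  have e1 : E g.1 = 1 + -t • X := congrArg Units.val e
  have : NeZero (2 : K) := ⟨two_ne_zero⟩
  obtain ⟨g', m, e'⟩ := P011LG.SE_invT (F := K) (fun t => IsAlgClosed.exists_eq_mul_self t)
    (g := g) (P011LT.mem_SE.2 fun x => (sm_E.1 (e1 ▸ a (-t)) x).trans (one_mul _))
  have e2 : E g'.1 = 1 + t • tp X := by
    rw [e', ← it_val, ← EU_val, EU_it, e, ← tp_smul, ← tp_one, ← tp_add]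
    rfl
  exact e2 ▸ sm_E.2 fun x => (P011LT.mem_SE.1 m x).trans (one_mul _).symm

theorem Xt.Ad [IsAlgClosed K] {u : (R K)ˣ} (h : u ∈ SX K) {X : R K} (a : Xt X) : Xt (Ad u X) :=
  ⟨fun e => a.ne (Ad_inj u (e.trans (Ad_zero u).symm)), by rw [← Ad_mul', a.sq, Ad_zero],
    gl_Ad h a.mem⟩

theorem Xt.smul {X : R K} (a : Xt X) {c : K} (h : c ≠ 0) : Xt (c • X) :=
  ⟨smul_ne_zero h a.ne, by rw [smul_mul_smul_comm, a.sq, smul_zero], (gl K).smul_mem c a.mem⟩

theorem Xt.tp {X : R K} (a : Xt X) : Xt (tp X) :=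
  ⟨fun e => a.ne (tp_inj (e.trans tp_zero.symm)), by rw [← tp_mul, a.sq, tp_zero], gl_tp a.mem⟩

theorem ext_iff_xt [IsAlgClosed K] {X : Matrix I I K} : Ext X ↔ Xt (E X) := by
  have e (t : K) : (∀ x, cub (x + t • X *ᵥ x) = cub x) ↔ Sm 1 (1 + t • E X) := by
    rw [← map_smul, ← map_one E, ← map_add, sm_E]
    simp only [add_mulVec, one_mulVec, smul_mulVec, one_mul]
  have q : X * X = 0 ↔ E X * E X = 0 := by rw [← map_mul, map_eq_zero_iff _ E.injective]
  refine ⟨fun ⟨a, b, c⟩ => ⟨(map_ne_zero_iff _ E.injective).2 a, q.1 b,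
    gl_of_sq (q.1 b) fun t => (e t).1 (c t)⟩, fun a =>
    ⟨(map_ne_zero_iff _ E.injective).1 a.ne, q.2 a.sq, fun t => (e t).2 ?_⟩⟩
  have h : (t • E X) * (t • E X) = 0 := by rw [smul_mul_smul_comm, a.sq, smul_zero]
  exact ex_sq h ▸ sm_ex (by rw [h, zero_mul]) ((gl K).smul_mem t a.mem).1

end Vale.Agent.P011LE
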